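import Vale.Agent.P216.H799.XOut2
import Vale.Agent.P216.H347.Cross
import Vale.Agent.P216.N929.Main

/-!
# P216-S3, block [BFB2]: the stable cohomology of the free loops of the 3-sphere, any field

* `omega3` : `OmegaOut M 2 x₀ B k` for every field `k`, `B` independent of `k`;
* `exists_xOut2` : the contract `H828C.XOut2 M B k` from `LongX M 2 k`;
* `longX_of_gM` : `LongX` from classes of the free loops which restrict to the `om j`.
-/

set_option linter.all false

namespace Vale.Agent.P216.H799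

open Set BoundedContinuousFunction
open Vale.Agent.P216.B64 Vale.Agent.P216.AS Vale.Agent.P216.GM
open Vale.Agent.P216.PS
open Vale.Agent.P216.L250 (XE LM fn XE_mono)
open Vale.Agent.P216.MV337 (FL)

/-- **OMEGA for the 3-sphere, every field.** -/
theorem omega3 (M : Type) [MetricSpace M] [CompactSpace M] {ρ : ℝ} (hρ : 0 < ρ)
    (hU : LS.UniqSeg M ρ) (he : Nonempty (M ≃ₜ Sph 3)) (x₀ : M) :
    ∃ B : ℝ, 0 < B ∧ ∀ (k : Type) [Field k], Nonempty (OmegaOut M 2 x₀ B k) :=
  N929.omega_of_homeo Crs.cross (by norm_num : 2 ≤ 3) M hρ hU he x₀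

/-- **The contract `XOut2` for the 3-sphere, every field**, from `LongX`. -/
theorem exists_xOut2 (M : Type) [MetricSpace M] [CompactSpace M] {ρ : ℝ} (hρ : 0 < ρ)
    (hU : LS.UniqSeg M ρ) (he : Nonempty (M ≃ₜ Sph 3)) :
    ∃ B : ℝ, 0 < B ∧ ∀ (k : Type) [Field k], LongX M 2 k → Nonempty (H828C.XOut2 M B k) := by
  have hne : Nonempty M := by
    obtain ⟨e⟩ := he
    have : (Metric.sphere (0 : EuclideanSpace ℝ (Fin (3 + 1))) 1).Nonempty :=
      NormedSpace.sphere_nonempty.2 zero_le_one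
    exact ⟨e.symm ⟨_, this.some_mem⟩⟩
  obtain ⟨x₀⟩ := hne
  obtain ⟨B, hB, hO⟩ := omega3 M hρ hU he x₀
  obtain ⟨B', hB', h⟩ := exists_XOut2 le_rfl M ρ hρ hU he x₀ B hB
  refine ⟨2 * B', by linarith, fun k _ hL => ?_⟩
  obtain ⟨X⟩ := h k (hO k) hL
  exact ⟨X.toC hB'⟩

variable {M : Type} [MetricSpace M] [CompactSpace M] {x₀ : M}

theorem P_subset_FL {s : ℝ} (hs : 0 ≤ s) : P x₀ x₀ s ⊆ FL M s := fun w hw => by
  have h0 : w 0 = x₀ := hw.2.1 0 le_rfl
  exact ⟨hw.1, fun u hu => by rw [h0]; exact hw.2.1 u hu, fun u hu => by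
    rw [h0]; exact hw.2.2 u hu⟩

/-- The loops based at `x₀` inside the free loops. -/
theorem umap_gM {s : ℝ} (hs : 0 < s) : UMap (P x₀ x₀ s) (XL M s) (MR.gM s) := by
  have h := H894.g_map (M := M) hs le_rfl
  rw [add_zero] at h
  have hX : XE M s ⊆ XL M s := by rw [XL_eq hs.le]
  exact h.mono (P_subset_FL hs.le) fun w hw => hX (h.mapsX (P_subset_FL hs.le hw))

/-- `LongX` from classes of the free loops which restrict to the `om j`. -/
theorem longX_of_gM {k : Type} [Field k] {m : ℕ} {B : ℝ} (hB : 0 ≤ B) (O : OmegaOut M m x₀ B k)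
    (hz : ∀ (j : ℕ) (s : ℝ) (hs : 0 < s), j * B ≤ s →
      ∃ z : HU k (XL M s) (j * m), hpull k (umap_gM hs) _ z = O.om j s) : LongX M m k := by
  refine longX_of_ext hB O (fun s => MR.gM s) (fun s hs => umap_gM hs) (fun s t hs hst => ?_) hz
  have h := MR.g_nat (M := M) hs hst le_rfl
  obtain ⟨D, hD, hm, h0, h1⟩ := h
  have ht := hs.trans_le hst
  have hX : XE M t ⊆ XL M t := by rw [XL_eq ht.le]
  exact ⟨D, hD.mono (P_subset_FL hs.le) fun r hr x hx => hX (hD.mapsX r hr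
    (P_subset_FL hs.le hx)), fun r hr x hx => hx.elim, h0.mono (P_subset_FL hs.le),
    h1.mono (P_subset_FL hs.le)⟩

end Vale.Agent.P216.H799
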