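import Vale.Agent.P216.H799.Free2
import Vale.Agent.P216.H754B.Fl
import Vale.Agent.P216.H774.ToXC
import Vale.Agent.P216.H539.StMoore
import Vale.Agent.P216.H828C.Contract2

/-!
# The stable cohomology of the free loops over any field when all the `om j` extend
(P216-S3, block [C2-WANG])

`XOut2 M m B k`: in every degree `q` one family `g q t ∈ H^q(XL M t)` which spans the stable
cohomology (bars shorter than `B`); `g q = 0` unless `q = m j` (`x_j`) or `q = m j + (m + 1)`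
(`y_j`); births of the `x_j` and of the `y_j` in bounded steps.
-/

set_option linter.all false

namespace Vale.Agent.P216.H799

open Set BoundedContinuousFunction
open Vale.Agent.P216.B64 Vale.Agent.P216.AS Vale.Agent.P216.GM
open Vale.Agent.P216.MV337 hiding gX gX_eq gX_zero
open Vale.Agent.P216.PS
open Vale.Agent.P216.H901 (SpIntl Hp PMa Based Free PM Triv)
open Vale.Agent.P216.H774 (FLFam gX gX_eq gX_zero)
open Vale.Agent.P216.L250 (XE LM fn XE_mono)
open Vale.Agent.P216.H754B (XP GP basedOf)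

/-- Output of the topology of the Moore free loops. -/
structure FL2 (M : Type) [MetricSpace M] (m : ℕ) (B : ℝ) (k : Type) [Field k] extends
    FLFam M k where
  span : ∀ q t, 0 < t → ∀ (h : FL M t ⊆ FL M (t + B)) (z : HU k (FL M (t + B)) q),
    ∃ c : k, hres k h q z = c • g q t
  g_zero : ∀ q t, 0 < t → (∀ j, q ≠ m * j) → (∀ j, q ≠ m * j + (m + 1)) → g q t = 0
  birth_x0 : ∀ t, 0 < t → B ≤ t → g (m * 0) t ≠ 0
  birth_x : ∀ j t, 0 < t → g (m * j) t ≠ 0 → g (m * (j + 1)) (t + B) ≠ 0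
  birth_y0 : ∀ t, 0 < t → B ≤ t → g (m * 0 + (m + 1)) t ≠ 0
  birth_y : ∀ j t, 0 < t → g (m * j + (m + 1)) t ≠ 0 → g (m * (j + 1) + (m + 1)) (t + B) ≠ 0

/-- Output of the topology of the free loop space, for one field, when all the `om j` extend. -/
structure XOut2 (M : Type) [MetricSpace M] (m : ℕ) (B : ℝ) (k : Type) [Field k] where
  g : ∀ (q : ℕ) (t : ℝ), HU k (XL M t) q
  res_g : ∀ q s t (h : s ≤ t), hres k (XL_mono h) q (g q t) = g q s
  span : ∀ q t, 0 ≤ t → ∀ (h : XL M t ⊆ XL M (t + B)) (z : HU k (XL M (t + B)) q),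
    ∃ c : k, hres k h q z = c • g q t
  g_zero : ∀ q t, (∀ j, q ≠ m * j) → (∀ j, q ≠ m * j + (m + 1)) → g q t = 0
  birth_x0 : ∀ t, B ≤ t → g (m * 0) t ≠ 0
  birth_x : ∀ j t, 0 ≤ t → g (m * j) t ≠ 0 → g (m * (j + 1)) (t + B) ≠ 0
  birth_y0 : ∀ t, B ≤ t → g (m * 0 + (m + 1)) t ≠ 0
  birth_y : ∀ j t, 0 ≤ t → g (m * j + (m + 1)) t ≠ 0 → g (m * (j + 1) + (m + 1)) (t + B) ≠ 0

section Out

variable {M : Type} [MetricSpace M] {m : ℕ} {B : ℝ} {k : Type} [Field k]
  (P : PM2 m (fun q => XP k M q) B)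

/-- The generators, for all real `t`. -/
noncomputable def gg (q : ℕ) (t : ℝ) : HU k (FL M t) q :=
  if ht : 0 < t then (P.g q).z t ht else (0 : HU k (FL M t) q)

theorem gg_eq (q : ℕ) (t : ℝ) (ht : 0 < t) : gg P q t = (P.g q).z t ht := by
  unfold gg
  exact dif_pos ht

/-- **`FL2` from `PM2`.** -/
noncomputable def fl2 (hB : 0 ≤ B) : FL2 M m B k where
  g := gg P
  res_g q s t hs h := by
    rw [gg_eq P q s hs, gg_eq P q t (hs.trans_le h)]
    exact (P.g q).comp s t hs h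
  span q t ht h z := by
    obtain ⟨a, ha⟩ := P.line q t (t + B) ht (by linarith) le_rfl z
    refine ⟨a, ?_⟩
    rw [gg_eq P q t ht]
    exact ha
  g_zero q t ht h1 h2 := by
    rw [gg_eq P q t ht]
    exact P.g_zero q h1 h2 t ht
  birth_x0 t ht h := by
    rw [gg_eq P _ t ht]
    exact P.birth_x0 t ht h
  birth_x j t ht h := by
    rw [gg_eq P _ t ht] at h
    rw [gg_eq P _ (t + B) (by linarith)]
    exact P.birth_x j t (t + B) ht (by linarith) le_rfl h
  birth_y0 t ht h := by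
    rw [gg_eq P _ t ht]
    exact P.birth_y0 t ht h
  birth_y j t ht h := by
    rw [gg_eq P _ t ht] at h
    rw [gg_eq P _ (t + B) (by linarith)]
    exact P.birth_y j t (t + B) ht (by linarith) le_rfl h

end Out

section Moore

variable {M : Type} [MetricSpace M] [CompactSpace M]
  (I : SpIntl (fun t => XE M t) (fun _ => ∅) (fun t => FL M t) (fun _ => ∅) 1)
  {m : ℕ} {B : ℝ} {k : Type} [Field k]

theorem gX_ne {F : FLFam M k} {q : ℕ} {t : ℝ} (ht : 0 ≤ t) (h : gX I F q t ≠ 0) :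
    F.g q (t + 1 + 1) ≠ 0 := by
  intro h2
  apply h
  have hXt : XL M t ⊆ XE M (t + 1) := XL_subset (max_le (by linarith) (by linarith))
  rw [gX_eq I F (by linarith) hXt le_rfl (umf I (by linarith) hXt le_rfl), h2, map_zero]

/-- **The transfer.** -/
noncomputable def xOut2 (F : FL2 M m B k) (hB : 0 < B)
    (hI : ∀ t, 0 < t → ∀ w ∈ FL M t, ∀ s ∈ Icc (0:ℝ) 1, fn (I.g t w) s = w (t * s)) :
    XOut2 M m (B + 3) k where
  g := gX I F.toFLFam
  res_g n s t h := by
    have hX : XL M s ⊆ XE M (max t 0 + 1) := (XL_mono h).trans (XL_subset (by linarith))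
    rw [gX, hres_hpull _ _ (umf I (by positivity) hX le_rfl)]
    exact (gX_eq I F.toFLFam (by positivity) hX le_rfl _).symm
  span n t ht h z := by
    have ht1 : 0 < t + 1 := by linarith
    have hXt : XL M t ⊆ XE M (t + 1) := XL_subset (max_le (by linarith) (by linarith))
    have hY : XE M (t + 1 + 1 + B + 1) ⊆ XL M (t + (B + 3)) := by
      rw [XL_eq (by linarith)]
      exact XE_mono (by linarith) (by linarith)
    have hg : UMap (FL M (t + 1 + 1 + B)) (XL M (t + (B + 3))) (I.g (t + 1 + 1 + B)) :=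
      umg I (by linarith) le_rfl hY
    have hg' : UMap (FL M (t + 1 + 1)) (XL M (t + (B + 3))) (I.g (t + 1 + 1 + B)) :=
      umg I (by linarith) (by linarith) hY
    have hf : UMap (XL M t) (FL M (t + 1 + 1)) (I.f (t + 1)) := umf I ht1 hXt le_rfl
    obtain ⟨c, hc⟩ := F.span n (t + 1 + 1) (by linarith) (FL_mono (by linarith))
      (hpull k hg n z)
    refine ⟨c, ?_⟩
    rw [hres_hpull _ _ hg'] at hc
    have := congrArg (hpull k hf n) hc
    rw [hpull_fg I ht1 hXt (by linarith) hY hf hg' h, map_smul] at this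
    rw [this, gX_eq I F.toFLFam ht1 hXt le_rfl hf]
  g_zero q s h1 h2 := by
    rw [gX, F.g_zero q _ (by positivity) h1 h2, map_zero]
  birth_x0 t ht h := by
    have h1 := gX_zero I F.toFLFam (by linarith) h
    exact F.birth_x0 (t - 1) (by linarith) (by linarith) h1
  birth_x i t ht h h' := by
    have h1 := gX_zero I F.toFLFam (by linarith) h'
    rw [show t + (B + 3) - 1 = t + 1 + 1 + B by ring] at h1
    exact F.birth_x i (t + 1 + 1) (by linarith) (gX_ne I ht h) h1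
  birth_y0 t ht h := by
    have h1 := gX_zero I F.toFLFam (by linarith) h
    exact F.birth_y0 (t - 1) (by linarith) (by linarith) h1
  birth_y i t ht h h' := by
    have h1 := gX_zero I F.toFLFam (by linarith) h'
    rw [show t + (B + 3) - 1 = t + 1 + 1 + B by ring] at h1
    exact F.birth_y i (t + 1 + 1) (by linarith) (gX_ne I ht h) h1

end Moore

/-! ### Long bars in the degrees `m * j` -/

/-- In the degrees `q` divisible by `m` the restriction maps `H^q(XL M (s + D)) → H^q(XL M s)` are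
non-zero for arbitrarily large shifts `D`. -/
def LongX (M : Type) [MetricSpace M] (m : ℕ) (k : Type) [Field k] : Prop :=
  ∀ (q : ℕ), m ∣ q → ∀ (D : ℝ) (hD : 0 ≤ D), ∃ s, 0 < s ∧ ∃ z : HU k (XL M (s + D)) q,
    hres k (XL_mono (by linarith : s ≤ s + D)) q z ≠ 0

/-- The same for the Moore loops. -/
def LongF (M : Type) [MetricSpace M] (m : ℕ) (k : Type) [Field k] : Prop :=
  ∀ (q : ℕ), m ∣ q → ∀ (D : ℝ) (hD : 0 ≤ D), ∃ s, 0 < s ∧ ∃ z : HU k (FL M (s + D)) q,
    hres k (FL_mono (by linarith : s ≤ s + D)) q z ≠ 0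

theorem LongX.longF {M : Type} [MetricSpace M] [CompactSpace M]
    (I : SpIntl (fun t => XE M t) (fun _ => ∅) (fun t => FL M t) (fun _ => ∅) 1)
    {m : ℕ} {k : Type} [Field k] (h : LongX M m k) : LongF M m k := by
  intro q hq D hD
  obtain ⟨s, hs, z, hz⟩ := h q hq (D + 3) (by linarith)
  refine ⟨s + 1, by linarith, ?_⟩
  have hX : XL M s ⊆ XE M s := XL_subset (max_le le_rfl hs.le)
  have hY : XE M (s + 1 + D + 1) ⊆ XL M (s + (D + 3)) := by
    rw [XL_eq (by linarith)]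
    exact XE_mono (by linarith) (by linarith)
  have hg : UMap (FL M (s + 1 + D)) (XL M (s + (D + 3))) (I.g (s + 1 + D)) :=
    umg I (by linarith) le_rfl hY
  have hg' : UMap (FL M (s + 1)) (XL M (s + (D + 3))) (I.g (s + 1 + D)) :=
    umg I (by linarith) (by linarith) hY
  have hf : UMap (XL M s) (FL M (s + 1)) (I.f s) := umf I hs hX le_rfl
  refine ⟨hpull k hg _ z, fun h0 => hz ?_⟩
  rw [hres_hpull _ _ hg'] at h0
  rw [← hpull_fg I hs hX (by linarith) hY hf hg' (XL_mono (by linarith)) z, h0, map_zero]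

/-- The classes `om j` are born before `j * B`. -/
theorem om_ne_of_le {M : Type} [MetricSpace M] {m : ℕ} {x₀ : M} {B : ℝ} {k : Type} [Field k]
    (hB : 0 ≤ B) (O : OmegaOut M m x₀ B k) (j : ℕ) : ∀ t, j * B ≤ t → O.om j t ≠ 0 := by
  induction j with
  | zero =>
    intro t ht
    rw [Nat.cast_zero, zero_mul] at ht
    exact O.om_ne t ht
  | succ j ih =>
    intro t ht h
    rw [Nat.cast_add, Nat.cast_one, add_mul, one_mul] at ht
    have h0 : 0 ≤ (j : ℝ) * B := mul_nonneg (Nat.cast_nonneg _) hB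
    have h1 := O.down j (t - B) (by linarith) (by rwa [sub_add_cancel])
    exact ih (t - B) (by linarith) h1

theorem hres_hres {k : Type} [Field k] {E : Type} [PseudoMetricSpace E] {A B C : Set E}
    (h₁ : A ⊆ B) (h₂ : B ⊆ C) (n : ℕ) (z : HU k C n) :
    hres k h₁ n (hres k h₂ n z) = hres k (h₁.trans h₂) n z := res_res _ _ z

/-- If all the `om j` come from classes of the free loops then `LongX` holds. -/
theorem longX_of_ext {M : Type} [MetricSpace M] {m : ℕ} {x₀ : M} {B : ℝ}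
    {k : Type} [Field k] (hB : 0 ≤ B) (O : OmegaOut M m x₀ B k)
    (G : ℝ → (ℝ →ᵇ M) → LM M) (hG : ∀ s, 0 < s → UMap (P x₀ x₀ s) (XL M s) (G s))
    (hGh : ∀ s t, 0 < s → s ≤ t → Hp (P x₀ x₀ s) ∅ (XL M t) ∅ (G s) (G t))
    (hz : ∀ (j : ℕ) (s : ℝ) (hs : 0 < s), j * B ≤ s →
      ∃ z : HU k (XL M s) (j * m), hpull k (hG s hs) _ z = O.om j s) : LongX M m k := by
  rintro q ⟨j, rfl⟩ D hD
  rw [Nat.mul_comm]
  have hj : 0 ≤ (j : ℝ) * B := mul_nonneg (Nat.cast_nonneg _) hB
  have hs : 0 < (j : ℝ) * B + 1 := by linarith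
  have ht : 0 < (j : ℝ) * B + 1 + D := by linarith
  obtain ⟨z, hz⟩ := hz j ((j : ℝ) * B + 1 + D) ht (by linarith)
  refine ⟨(j : ℝ) * B + 1, hs, z, fun h0 => om_ne_of_le hB O j ((j : ℝ) * B + 1) (by linarith) ?_⟩
  have hst : (j : ℝ) * B + 1 ≤ (j : ℝ) * B + 1 + D := by linarith
  have hX : XL M ((j : ℝ) * B + 1) ⊆ XL M ((j : ℝ) * B + 1 + D) := XL_mono hst
  have h1 : UMap (P x₀ x₀ ((j : ℝ) * B + 1)) (XL M ((j : ℝ) * B + 1 + D)) (G ((j : ℝ) * B + 1)) :=
    (hG _ hs).mono le_rfl fun _ h => hX ((hG _ hs).mapsX h)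
  have h2 : UMap (P x₀ x₀ ((j : ℝ) * B + 1)) (XL M ((j : ℝ) * B + 1 + D))
      (G ((j : ℝ) * B + 1 + D)) :=
    (hG _ ht).mono (P_mono hst) fun _ h => (hG _ ht).mapsX (P_mono hst h)
  rw [← O.res_om j _ _ hst, ← hz, hres_hpull (hG _ ht) (P_mono hst) h2,
    ← hpull_hp h1 h2 (hGh _ _ hs hst), ← hpull_hres (hG _ hs) hX h1, h0, map_zero]

/-! ### The assembly -/

/-- **The stable cohomology of the free loops, any field.** -/
theorem exists_FL2 {m : ℕ} (hm : 2 ≤ m) (M : Type) [MetricSpace M] [CompactSpace M] (ρ : ℝ)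
    (hρ : 0 < ρ) (hs : LS.UniqSeg M ρ) (he : Nonempty (M ≃ₜ Sph (m + 1))) (x₀ : M) (B : ℝ)
    (hB : 0 < B) : ∃ B' : ℝ, 0 < B' ∧ ∀ (k : Type) [Field k], Nonempty (OmegaOut M m x₀ B k) →
      LongF M m k → Nonempty (FL2 M m B' k) := by
  obtain ⟨C⟩ := H388.stCaps (m + 1) M x₀ (by omega) he
  obtain ⟨c, ⟨T⟩⟩ := exists_triv C hρ hs
  have hc := T.c0
  obtain ⟨B', hF⟩ := free_of_triv hm T B B 0 hB.le hB.le
  have h0 : 0 ≤ max B' (B + 3 * c) := le_trans (by linarith) (le_max_right B' _)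
  have hB2 : 0 < max (0 : ℝ) 1 + B + 2 * max B' (B + 3 * c) := by
    have h1 := le_max_left (0 : ℝ) 1
    linarith
  refine ⟨_, hB2, fun k _ hO hL => ?_⟩
  obtain ⟨O⟩ := hO
  obtain ⟨F⟩ := hF k (basedOf hB.le O)
  have hcf : ∀ j, F.cf j = 0 := by
    intro j
    refine cf_eq_zero F j fun hE => ?_
    obtain ⟨s, hs0, z, hz⟩ := hL (m * j) (dvd_mul_right _ _) (max B' 0) (le_max_right _ _)
    exact hz (hE s (s + max B' 0) hs0 (by linarith [le_max_right B' 0])
      (by linarith [le_max_left B' 0]) z)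
  obtain ⟨P⟩ := nonempty_PM2 hm hB.le hB.le F hcf (le_max_left _ _) (le_max_right B' (B + 3 * c))
  exact ⟨fl2 P hB2.le⟩

/-- **The stable cohomology of the energy sublevels, any field.** -/
theorem exists_XOut2 {m : ℕ} (hm : 2 ≤ m) (M : Type) [MetricSpace M] [CompactSpace M] (ρ : ℝ)
    (hρ : 0 < ρ) (hs : LS.UniqSeg M ρ) (he : Nonempty (M ≃ₜ Sph (m + 1))) (x₀ : M) (B : ℝ)
    (hB : 0 < B) : ∃ B' : ℝ, 0 < B' ∧ ∀ (k : Type) [Field k], Nonempty (OmegaOut M m x₀ B k) →
      LongX M m k → Nonempty (XOut2 M m B' k) := by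
  obtain ⟨B', hB', h⟩ := exists_FL2 hm M ρ hρ hs he x₀ B hB
  obtain ⟨I, hI⟩ := MR.stMoore M ρ hρ hs 1 one_pos
  refine ⟨B' + 3, by linarith, fun k _ hO hL => ?_⟩
  obtain ⟨F⟩ := h k hO (hL.longF I)
  exact ⟨xOut2 I F hB' hI⟩

/-! ### The contract of `H828C` -/

/-- **The contract for the 3-sphere.** -/
noncomputable def XOut2.toC {M : Type} [MetricSpace M] {B : ℝ} {k : Type} [Field k] (hB : 0 < B)
    (X : XOut2 M 2 B k) : H828C.XOut2 M (2 * B) k where
  g := X.g
  res_g := X.res_g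
  span q t ht h z := by
    have h1 : XL M t ⊆ XL M (t + B) := XL_mono (by linarith)
    have h2 : XL M (t + B) ⊆ XL M (t + 2 * B) := XL_mono (by linarith)
    obtain ⟨c, hc⟩ := X.span q t ht h1 (hres k h2 q z)
    exact ⟨c, by rw [← hc]; exact (hres_hres h1 h2 q z).symm⟩
  g_one t := X.g_zero 1 t (fun j => by omega) fun j => by omega
  birth_x0 t ht := by
    have h1 := X.birth_x 0 (t - B) (by linarith) (X.birth_x0 (t - B) (by linarith))
    rwa [sub_add_cancel] at h1
  birth_x i t ht h h' := by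
    have h1 := X.birth_x (i + 1) t ht (by
      rw [show 2 * (i + 1) = 2 * i + 2 by ring]; exact h)
    apply h1
    have h2 := X.res_g (2 * (i + 1) + 2) (t + B) (t + 2 * B) (by linarith)
    rw [h', map_zero] at h2
    rw [show 2 * (i + 1 + 1) = 2 * (i + 1) + 2 by ring]
    exact h2.symm
  birth_y0 t ht := X.birth_y0 t (by linarith)
  birth_y i t ht h h' := by
    have h1 := X.birth_y i t ht h
    apply h1
    have h2 := X.res_g (2 * (i + 1) + 3) (t + B) (t + 2 * B) (by linarith)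
    rw [h', map_zero] at h2
    exact h2.symm

end Vale.Agent.P216.H799
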