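import Vale.Agent.P216.H799.Taut

/-!
# Strong excision for the pieces over `D₊`, `D₋`, any field (P216-S3, block [C2-WANG], W1)

Fork of `H83/Exc.lean` without `(2 : k) ≠ 0`.
-/

set_option linter.all false

open Set

namespace Vale.Agent.P216.H799

open Vale.Agent.P216.AS Vale.Agent.P216.H901
open Vale.Agent.P216.H83 (ovr_sub ovr_mono ovr_inter ovr_union ovr_compact)

section Gen

variable {E M : Type} [MetricSpace E] {k : Type} [Field k]

/-- **Strong excision**, trivial symmetry. -/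
theorem exc_bijective (k : Type) [Field k] [TopologicalSpace M] {ev : E → M} (hev : Continuous ev)
    {X : ℝ → Set E} {Dp Dm : Set M} (hp : IsClosed Dp) (hm : IsClosed Dm)
    (hU : Dp ∪ Dm = univ) {t : ℝ} (hX : IsCompact (X t)) (q : ℕ) :
    Function.Bijective (resR (ovr_sub ev X Dp t)
      (ovr_mono (subset_refl _) inter_subset_right : ovr ev X (Dp ∩ Dm) t ⊆ ovr ev X Dm t) q :
      Hr (tr E) (on k) (X t) (ovr ev X Dm t) q →ₗ[k]
        Hr (tr E) (on k) (ovr ev X Dp t) (ovr ev X (Dp ∩ Dm) t) q) :=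
  strong_excision (ovr_compact hev hm hX) (ovr_compact hev hp hX) (ovr_union hU) ovr_inter _ _ q

/-- The excision isomorphism, from the piece over `D₊` to the whole space. -/
noncomputable def excE (k : Type) [Field k] [TopologicalSpace M] {ev : E → M} (hev : Continuous ev)
    {X : ℝ → Set E} {Dp Dm : Set M} (hp : IsClosed Dp) (hm : IsClosed Dm)
    (hU : Dp ∪ Dm = univ) {t : ℝ} (hX : IsCompact (X t)) (q : ℕ) :
    Hr (tr E) (on k) (X t) (ovr ev X Dm t) q ≃ₗ[k]
      Hr (tr E) (on k) (ovr ev X Dp t) (ovr ev X (Dp ∩ Dm) t) q :=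
  LinearEquiv.ofBijective _ (exc_bijective k hev hp hm hU hX q)

section

variable [TopologicalSpace M] {ev : E → M} (hev : Continuous ev)
    {X : ℝ → Set E} {Dp Dm : Set M} (hp : IsClosed Dp) (hm : IsClosed Dm)
    (hU : Dp ∪ Dm = univ) {s t : ℝ}

@[simp] theorem excE_apply (hX : IsCompact (X t)) (q : ℕ) (x) :
    excE k hev hp hm hU hX q x = (resR (ovr_sub ev X Dp t)
      (ovr_mono (subset_refl _) inter_subset_right : ovr ev X (Dp ∩ Dm) t ⊆ ovr ev X Dm t) q :
      Hr (tr E) (on k) (X t) (ovr ev X Dm t) q →ₗ[k]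
        Hr (tr E) (on k) (ovr ev X Dp t) (ovr ev X (Dp ∩ Dm) t) q) x := rfl

/-- naturality of the excision isomorphism -/
theorem excE_nat (hXs : IsCompact (X s)) (hXt : IsCompact (X t)) (hst : X s ⊆ X t) (q : ℕ) (x) :
    (resR (ovr_mono hst (subset_refl Dp)) (ovr_mono hst (subset_refl (Dp ∩ Dm))) q :
      Hr (tr E) (on k) (ovr ev X Dp t) (ovr ev X (Dp ∩ Dm) t) q →ₗ[k]
        Hr (tr E) (on k) (ovr ev X Dp s) (ovr ev X (Dp ∩ Dm) s) q)
      (excE k hev hp hm hU hXt q x) =
    excE k hev hp hm hU hXs q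
      ((resR hst (ovr_mono hst (subset_refl Dm)) q :
        Hr (tr E) (on k) (X t) (ovr ev X Dm t) q →ₗ[k]
          Hr (tr E) (on k) (X s) (ovr ev X Dm s) q) x) := by
  rw [excE_apply, excE_apply, resR_resR, resR_resR]

/-- naturality of the inverse of the excision isomorphism -/
theorem excE_symm_nat (hXs : IsCompact (X s)) (hXt : IsCompact (X t)) (hst : X s ⊆ X t) (q : ℕ)
    (y) :
    (resR hst (ovr_mono hst (subset_refl Dm)) q :
        Hr (tr E) (on k) (X t) (ovr ev X Dm t) q →ₗ[k]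
          Hr (tr E) (on k) (X s) (ovr ev X Dm s) q) ((excE k hev hp hm hU hXt q).symm y) =
    (excE k hev hp hm hU hXs q).symm
      ((resR (ovr_mono hst (subset_refl Dp)) (ovr_mono hst (subset_refl (Dp ∩ Dm))) q :
        Hr (tr E) (on k) (ovr ev X Dp t) (ovr ev X (Dp ∩ Dm) t) q →ₗ[k]
          Hr (tr E) (on k) (ovr ev X Dp s) (ovr ev X (Dp ∩ Dm) s) q) y) := by
  rw [LinearEquiv.eq_symm_apply, ← excE_nat hev hp hm hU hXs hXt hst, LinearEquiv.apply_symm_apply]

end

end Gen

end Vale.Agent.P216.H799
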