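import Vale.Agent.P216.H799.Susp
import Vale.Agent.P216.H799.Exc
import Vale.Agent.P216.H901.W3

/-!
# The Wang sequence with bounded shifts, any field (P216-S3, block [C2-WANG], W3)

Fork of `H901/W3.lean` without `(2 : k) ≠ 0`:
`wang k T : Wang m (H^*(Om)) (H^*(X)) c` for `T : Triv (m + 1) ev X Om c`.
-/

set_option linter.unusedVariables false

open Set

namespace Vale.Agent.P216.H799

open Vale.Agent.P216.AS Vale.Agent.P216.H901
open Vale.Agent.P216.H83 (ovr_sub ovr_mono ovr_inter ovr_union ovr_compact lesA lesB lesD lesA_nat lesB_nat lesD_nat les_ex1 les_ex2 les_ex3)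

variable {k : Type} [Field k]

/-! ### The iterated suspension -/

section SusN

variable {E : Type} [MetricSpace E]

/-- `H^{q+n}(Z × (I^n, ∂I^n)) ≃ H^q(Z)`. -/
noncomputable def susN (k : Type) [Field k] (Z : Set E) (q : ℕ) : ∀ n : ℕ,
    Hr (tr (Cu E n)) (on k) (cub n Z) (bdc n Z) (q + n) ≃ₗ[k] Hr (tr E) (on k) Z ∅ q
  | 0 => LinearEquiv.refl k _
  | n + 1 => (LinearEquiv.ofBijective (sus k (cub n Z) (bdc n Z) (q + n))
      (sus_bijective k (bdc_subset n Z) (q + n))).trans (susN k Z q n)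

theorem susN_nat (k : Type) [Field k] {Z Z' : Set E} (h : Z' ⊆ Z) (q : ℕ) : ∀ (n : ℕ)
    (x : Hr (tr (Cu E n)) (on k) (cub n Z) (bdc n Z) (q + n)),
    (resR h subset_rfl q : Hr (tr E) (on k) Z ∅ q →ₗ[k] Hr (tr E) (on k) Z' ∅ q)
      (susN k Z q n x) = susN k Z' q n (resR (cub_mono h n) (bdc_mono h n) (q + n) x)
  | 0, x => rfl
  | n + 1, x => by
    have e := sus_resR (cub_mono h n) (bdc_mono h n) (q + n) (cub_mono h (n + 1))
      (bdc_mono h (n + 1)) x
    change (resR h subset_rfl q : Hr (tr E) (on k) Z ∅ q →ₗ[k] Hr (tr E) (on k) Z' ∅ q)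
      (susN k Z q n (sus k (cub n Z) (bdc n Z) (q + n) x)) =
      susN k Z' q n (sus k (cub n Z') (bdc n Z') (q + n) (resR _ _ (q + n + 1) x))
    rw [susN_nat k h q n, ← e]
    rfl

/-- `H^q(Z × (I^n, ∂I^n)) = 0` for `q < n`. -/
theorem cub_low (k : Type) [Field k] (Z : Set E) : ∀ (n q : ℕ), q < n →
    ∀ x : Hr (tr (Cu E n)) (on k) (cub n Z) (bdc n Z) q, x = 0
  | 0, q, h, _ => absurd h (by omega)
  | n + 1, 0, _, x => cyl_zero x
  | n + 1, q + 1, h, x => sus_injective k (bdc_subset n Z) q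
      ((cub_low k Z n q (by omega) _).trans (map_zero (sus k (cub n Z) (bdc n Z) q)).symm)

end SusN

/-! ### The Wang data of a trivialisation -/

section W3

variable {E E' M : Type} [MetricSpace E] [MetricSpace E'] [MetricSpace M] {ev : E → M}
  {X : ℝ → Set E} {Om : ℝ → Set E'} {c : ℝ}

/-- `H^{q+n}(Om t × (I^n, ∂I^n)) ≅ H^q(Om t)`. -/
noncomputable def isoSus (k : Type) [Field k] (h : Mono Om) (n q : ℕ) :
    PMIso (PMr k (fun t => cub n (Om t)) (fun t => bdc n (Om t)) (mono_cub n h) (mono_bdc n h)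
      (q + n)) (PMr k Om (fun _ => ∅) h mono_empty q) where
  e t ht := susN k (Om t) q n
  nat s t hs ht hst x := susN_nat k (h s t hs hst) q n x


variable {m : ℕ} (T : Triv (m + 1) ev X Om c)

/-- Strong excision. -/
noncomputable def isoExc (k : Type) [Field k] (q : ℕ) :
    PMIso (PMr k X (ovr ev X T.Dm) T.X_mono (mono_ovr T.X_mono _) q)
      (PMr k (ovr ev X T.Dp) (ovr ev X (T.Dp ∩ T.Dm)) (mono_ovr T.X_mono _)
        (mono_ovr T.X_mono _) q) where
  e t ht := excE k T.ev_cont T.closed_p T.closed_m T.union (T.X_comp t ht) q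
  nat s t hs ht h x := excE_nat T.ev_cont T.closed_p T.closed_m T.union (T.X_comp s hs)
    (T.X_comp t ht) (T.X_mono s t hs h) q x

/-- The interleaving of the relative groups with `H^*(Om × (I^n, ∂I^n))`. -/
noncomputable def iP0 (k : Type) [Field k] (q : ℕ) :
    Intl (PMr k X (ovr ev X T.Dm) T.X_mono (mono_ovr T.X_mono _) q)
      (PMr k (fun t => cub (m + 1) (Om t)) (fun t => bdc (m + 1) (Om t))
        (mono_cub (m + 1) T.Om_mono) (mono_bdc (m + 1) T.Om_mono) q) c :=
  PMIso.intl (isoExc T k q) (isoRefl _) T.c0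
    (T.tp.intl k (mono_ovr T.X_mono _) (mono_ovr T.X_mono _) (mono_cub (m + 1) T.Om_mono)
      (mono_bdc (m + 1) T.Om_mono) (fun t => ovr_mono subset_rfl inter_subset_left)
      (fun t => bdc_subset _ _) T.c0 q)

/-- The Wang data, relative form of the absolute groups. -/
noncomputable def wang0 (k : Type) [Field k] :
    Wang m (fun q => PMr k Om (fun _ => ∅) T.Om_mono mono_empty q)
      (fun q => PMr k X (fun _ => ∅) T.X_mono mono_empty q) c where
  c0 := T.c0
  P q := PMr k X (ovr ev X T.Dm) T.X_mono (mono_ovr T.X_mono _) q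
  Q q := PMr k (ovr ev X T.Dm) (fun _ => ∅) (mono_ovr T.X_mono _) mono_empty q
  α q t ht := lesA k (X t) (ovr ev X T.Dm t) q
  β q t ht := lesB k (ovr_sub ev X T.Dm t) q
  δ q t ht := lesD k (X t) (ovr ev X T.Dm t) q
  α_nat q s t hs ht h x := lesA_nat k (T.X_mono s t hs h) (mono_ovr T.X_mono _ s t hs h) q x
  β_nat q s t hs ht h x := lesB_nat k (ovr_sub ev X T.Dm t) (ovr_sub ev X T.Dm s)
    (T.X_mono s t hs h) (mono_ovr T.X_mono _ s t hs h) q x
  δ_nat q s t hs ht h x := lesD_nat k (T.X_mono s t hs h) (mono_ovr T.X_mono _ s t hs h) q x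
  ex1 q t ht := les_ex1 k (ovr_sub ev X T.Dm t) q
  ex2 q t ht := les_ex2 k (ovr_sub ev X T.Dm t) q
  ex3 q t ht := les_ex3 k (ovr_sub ev X T.Dm t) q
  iQ q := T.tm.intl k (mono_ovr T.X_mono _) mono_empty T.Om_mono mono_empty
    (fun t => empty_subset _) (fun t => empty_subset _) T.c0 q
  iP q := PMIso.intl (isoRefl _) (isoSus k T.Om_mono (m + 1) q).symm T.c0
    (iP0 T k (q + (m + 1)))
  P0 q hq := by
    have h := (iP0 T k q).eph T.c0 le_rfl
      (fun s t hs hst _ x => cub_low k (Om s) (m + 1) q (by omega) _)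
    rwa [zero_add] at h

/-- **The Wang data of a trivialisation.** -/
noncomputable def wang (k : Type) [Field k] :
    Wang m (fun q => PMa k Om T.Om_mono q) (fun q => PMa k X T.X_mono q) c :=
  (wang0 T k).congr (fun q => isoEmpty k Om T.Om_mono q) (fun q => isoEmpty k X T.X_mono q)


/-- **Section 1c of note 11516**: the stable cohomology of the free loops from the stable
cohomology of the based loops. The constant does not depend on the field. -/
theorem free_of_triv {m : ℕ} (hm : 2 ≤ m) (T : Triv (m + 1) ev X Om c) (B C B0 : ℝ) (hB : 0 ≤ B)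
    (hC : 0 ≤ C) : ∃ B' : ℝ, ∀ (k : Type) [Field k]
      (b : Based m (fun q => PMa k Om T.Om_mono q) B C B0), Nonempty (Free (wang T k) b B') := by
  obtain ⟨B', h⟩ := propW4 m hm B C B0 c hB hC T.c0
  exact ⟨B', fun k _ b => h k _ _ (wang T k) b⟩

end W3

end Vale.Agent.P216.H799
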