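import Vale.Agent.P216.H799.W3
import Vale.Agent.P216.H901.W4

/-!
# The stable cohomology of the free loops when all the `om j` extend (P216-S3, [C2-WANG])

* `cf_eq_zero` : `cf j = 0` if `X (m * j)` is not ephemeral;
* `y_ne` : births of the classes `y j`.
-/

set_option linter.unusedVariables false

namespace Vale.Agent.P216.H799

open Vale.Agent.P216.H901

variable {k : Type} [Field k] {m : ℕ} {G X : ℕ → PM k} {B C B0 c B' : ℝ} {w : Wang m G X c}
  {b : Based m G B C B0}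

/-- If `H^{mj}` of the free loops has long bars then `om j` extends. -/
theorem cf_eq_zero (F : Free w b B') (j : ℕ) (h : ¬ (X (m * j)).Eph B') : F.cf j = 0 := by
  by_contra hj
  apply h
  intro s t hs hst hb x
  obtain ⟨a, ha⟩ := F.line_x j s t hs hst hb x
  rw [ha, F.x_zero j hj, smul_zero]

/-- `δ (κ (j + 1)) = 0` if `cf (j + 1) = 0`. -/
theorem dκ_eq_zero (F : Free w b B') (j : ℕ) (h : F.cf (j + 1) = 0) (s : ℝ) (hs : 0 < s) :
    (w.dκ b (j + 1)).z s hs = 0 := by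
  have hc := w.c0
  have h1 : 0 < s + c := by linarith
  have h2 : 0 < s + c + c := by linarith
  have h3 : 0 < s + c + c + c := by linarith
  have e1 : (w.iP (m * j)).f (s + c) (s + c + c) h1 le_rfl ((w.dκ b (j + 1)).z (s + c + c) h2) =
      0 := by
    have := F.th j (s + c) (s + c + c) (s + c + c + c) h1 h2 h3 le_rfl le_rfl
    rw [w.κ_eq b (j + 1) h2 h3 le_rfl, h, zero_smul] at this
    exact this
  have e2 := (w.iP (m * j)).gf s (s + c) (s + c + c) hs h1 le_rfl le_rfl (by linarith)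
    ((w.dκ b (j + 1)).z (s + c + c) h2)
  rw [e1, map_zero] at e2
  have e3 := (w.dκ b (j + 1)).comp s (s + c + c) hs (by linarith)
  rw [← e3]
  exact e2.symm

/-- **Births of the `y j`**, lower bound. -/
theorem y_ne (hB : 0 ≤ B) (F : Free w b B') (j : ℕ) (hj : F.cf (j + 1) = 0) {s t : ℝ}
    (hs : 0 < s) (ht : 0 < t) (h : s + (B + 3 * c) ≤ t) (hne : (b.om j).z s hs ≠ 0) :
    (F.y j).z t ht ≠ 0 := by
  have hc := w.c0
  intro h0
  apply hne
  have ht1 : 0 < t + c := by linarith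
  rw [F.y_def j t (t + c) ht ht1 le_rfl, w.κP_eq b j ht ht1 le_rfl] at h0
  obtain ⟨q, hq⟩ := (w.ex3 (m * (j + 1)) t ht _).1 h0
  have hu : 0 < s + c := by linarith
  obtain ⟨a, ha⟩ := w.Q_line b hB (j + 1) (s + c) t hu (by linarith) (by linarith) q
  have e1 : w.δ (m * (j + 1)) (s + c) hu ((w.Q (m * (j + 1))).ρ (s + c) t hu (by linarith) q) =
      (w.κP b j).z (s + c) hu := by
    rw [← w.δ_nat (m * (j + 1)) (s + c) t hu ht (by linarith) q, hq]
    exact (w.κP b j).comp (s + c) t hu (by linarith)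
  have e2 : (w.κP b j).z (s + c) hu = 0 := by
    rw [← e1, ha, map_smul]
    have : w.δ (m * (j + 1)) (s + c) hu ((w.κ b (j + 1)).z (s + c) hu) = 0 :=
      dκ_eq_zero F j hj (s + c) hu
    rw [this, smul_zero]
  have e3 := (w.iP (m * j)).f_f_fam w.c0 (b.om j) hs hu le_rfl
  rw [← e3]
  change (w.iP (m * j)).f s (s + c) hs le_rfl ((w.κP b j).z (s + c) hu) = 0
  rw [e2, map_zero]

/-- **Births of the `y j`**, upper bound. -/
theorem om_ne_of_y (F : Free w b B') (j : ℕ) {s t : ℝ} (hs : 0 < s) (ht : 0 < t)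
    (h : s + c ≤ t) (hne : (F.y j).z s hs ≠ 0) : (b.om j).z t ht ≠ 0 := by
  intro h0
  apply hne
  rw [F.y_def j s t hs ht h, h0, map_zero, map_zero]

/-- **The output at the level of persistence modules**: one generator in each degree. -/
structure PM2 (m : ℕ) (X : ℕ → PM k) (B : ℝ) where
  g : ∀ q, (X q).Fam
  line : ∀ q, (X q).Line (g q) B
  g_zero : ∀ q, (∀ j, q ≠ m * j) → (∀ j, q ≠ m * j + (m + 1)) → ∀ t ht, (g q).z t ht = 0
  birth_x0 : ∀ t ht, B ≤ t → (g (m * 0)).z t ht ≠ 0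
  birth_x : ∀ j s t hs ht, s + B ≤ t → (g (m * j)).z s hs ≠ 0 → (g (m * (j + 1))).z t ht ≠ 0
  birth_y0 : ∀ t ht, B ≤ t → (g (m * 0 + (m + 1))).z t ht ≠ 0
  birth_y : ∀ j s t hs ht, s + B ≤ t → (g (m * j + (m + 1))).z s hs ≠ 0 →
    (g (m * (j + 1) + (m + 1))).z t ht ≠ 0

/-- The property of the generator in degree `q`. -/
structure GQ2 (b : Based m G B C B0) (D : ℝ) (q : ℕ) (g : (X q).Fam) : Prop where
  line : (X q).Line g D
  bx : ∀ j, q = m * j → ∀ s t hs ht, s + D ≤ t → (b.om j).z s hs ≠ 0 → g.z t ht ≠ 0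
  box : ∀ j, q = m * j → ∀ s t hs ht, s + D ≤ t → g.z s hs ≠ 0 → (b.om j).z t ht ≠ 0
  bz : ∀ j, q = m * j + (m + 1) → ∀ s t hs ht, s + D ≤ t → (b.om j).z s hs ≠ 0 → g.z t ht ≠ 0
  boz : ∀ j, q = m * j + (m + 1) → ∀ s t hs ht, s + D ≤ t → g.z s hs ≠ 0 →
    (b.om j).z t ht ≠ 0
  z0 : (∀ j, q ≠ m * j) → (∀ j, q ≠ m * j + (m + 1)) → ∀ t ht, g.z t ht = 0

theorem exists_GQ2 (hm : 2 ≤ m) (hB : 0 ≤ B) (F : Free w b B')
    (hcf : ∀ j, F.cf j = 0) {D : ℝ} (hD : B' ≤ D) (hD' : B + 3 * c ≤ D) (q : ℕ) :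
    ∃ g : (X q).Fam, GQ2 b D q g := by
  have hc := w.c0
  by_cases h1 : ∃ j, q = m * j
  · obtain ⟨j, rfl⟩ := h1
    have hj : ∀ i, m * j = m * i → i = j := fun i hi =>
      (Nat.eq_of_mul_eq_mul_left (by omega) hi).symm
    refine ⟨F.x j, ⟨(F.line_x j).mono hD, ?_, ?_, ?_, ?_, ?_⟩⟩
    · intro i hi s t hs ht h
      rw [hj i hi]
      exact F.x_ne j (hcf j) s t hs ht (by linarith)
    · intro i hi s t hs ht h
      rw [hj i hi]
      exact F.om_ne j s t hs ht (by linarith)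
    · intro i hi
      exact absurd (Dvd.intro _ hi) (not_dvd_y hm i)
    · intro i hi
      exact absurd (Dvd.intro _ hi) (not_dvd_y hm i)
    · intro hi
      exact absurd rfl (hi j)
  · by_cases h2 : ∃ j, q = m * j + (m + 1)
    · obtain ⟨j, rfl⟩ := h2
      have hj : ∀ i, m * j + (m + 1) = m * i + (m + 1) → i = j := fun i hi =>
        (Nat.eq_of_mul_eq_mul_left (by omega) (Nat.add_right_cancel hi)).symm
      refine ⟨F.y j, ⟨(F.line_y j).mono hD, ?_, ?_, ?_, ?_, ?_⟩⟩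
      · intro i hi
        exact absurd ⟨i, hi⟩ h1
      · intro i hi
        exact absurd ⟨i, hi⟩ h1
      · intro i hi s t hs ht h
        rw [hj i hi]
        exact y_ne hB F j (hcf _) hs ht (by linarith)
      · intro i hi s t hs ht h
        rw [hj i hi]
        exact om_ne_of_y F j hs ht (by linarith)
      · intro _ hi
        exact absurd rfl (hi j)
    · have h3 : ¬ m ∣ q := fun ⟨j, hj⟩ => h1 ⟨j, hj⟩
      have h4 : ∀ j, q ≠ m * j + (m + 1) := fun j hj => h2 ⟨j, hj⟩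
      refine ⟨PM.Fam.zero _, ⟨?_, ?_, ?_, ?_, ?_, ?_⟩⟩
      · intro s t hs h hb x
        exact ⟨0, by rw [F.eph q h3 h4 s t hs h (by linarith) x, zero_smul]⟩
      · intro i hi
        exact absurd ⟨i, hi⟩ h1
      · intro i hi
        exact absurd ⟨i, hi⟩ h1
      · intro i hi
        exact absurd ⟨i, hi⟩ h2
      · intro i hi
        exact absurd ⟨i, hi⟩ h2
      · intro _ _ t ht
        rfl

/-- **The generators in all degrees**, if all the `om j` extend. -/
theorem nonempty_PM2 (hm : 2 ≤ m) (hB : 0 ≤ B) (hC : 0 ≤ C) (F : Free w b B')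
    (hcf : ∀ j, F.cf j = 0) {D : ℝ} (hD : B' ≤ D) (hD' : B + 3 * c ≤ D) :
    Nonempty (PM2 m X (max B0 1 + C + 2 * D)) := by
  have hc := w.c0
  have hD0 : 0 ≤ D := by linarith
  choose g hg using exists_GQ2 hm hB F hcf hD hD'
  have hmax : (1 : ℝ) ≤ max B0 1 := le_max_right _ _
  have hmax' : B0 ≤ max B0 1 := le_max_left _ _
  have hpos : 0 < max B0 1 := by linarith
  refine ⟨⟨g, fun q => ((hg q).line).mono (by linarith), fun q => (hg q).z0, ?_, ?_, ?_, ?_⟩⟩
  · intro t ht h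
    exact (hg _).bx 0 rfl (max B0 1) t hpos ht (by linarith) (b.om0 _ hpos hmax')
  · intro j s t hs ht h hne
    have h1 : 0 < s + D := by linarith
    have h2 : 0 < s + D + C := by linarith
    exact (hg _).bx (j + 1) rfl _ t h2 ht (by linarith)
      (b.up j _ _ h1 h2 le_rfl ((hg _).box j rfl s _ hs h1 le_rfl hne))
  · intro t ht h
    exact (hg _).bz 0 rfl (max B0 1) t hpos ht (by linarith) (b.om0 _ hpos hmax')
  · intro j s t hs ht h hne
    have h1 : 0 < s + D := by linarith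
    have h2 : 0 < s + D + C := by linarith
    exact (hg _).bz (j + 1) rfl _ t h2 ht (by linarith)
      (b.up j _ _ h1 h2 le_rfl ((hg _).boz j rfl s _ hs h1 le_rfl hne))

end Vale.Agent.P216.H799
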