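import Vale.Agent.P216.H962.Kop

/-!
# Integration over the cube, any characteristic (P216-S3, block [C2-WANG])

Fork of `H962/Kop.lean` with `la k := lam k` (no averaging over the reflection), so that no
hypothesis `(2 : k) ≠ 0` is needed (and the reflection formula `K1_refl` is lost).
-/

open Set Matrix

namespace Vale.Agent.P216.H799

open Vale.Agent.P216.DV965 Vale.Agent.P216.AS
open Vale.Agent.P216.H962 (prism_nat jj)

/-! ### The functional -/

/-- The functional. -/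
noncomputable abbrev la (k : Type) [Field k] : (ℝ × ℝ → k) →ₗ[k] k := lam k

variable {k : Type} [Field k]

theorem la_van {F : ℝ × ℝ → k} (hF : VanI F) : la k F = 0 := lam_van hF

theorem la_congr {F F' : ℝ × ℝ → k} (h : ∀ r ∈ Icc (0 : ℝ) 1, ∀ s ∈ Icc (0 : ℝ) 1,
    F (r, s) = F' (r, s)) : la k F = la k F' := by
  rw [← sub_eq_zero, ← map_sub]
  exact la_van ⟨1, one_pos, fun r hr s hs _ => by rw [Pi.sub_apply, h r hr s hs, sub_self]⟩

theorem la_diff (f : ℝ → k) : la k (fun r => f r.2 - f r.1) = f 1 - f 0 := lam_diff f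

variable {E E' E'' : Type}

/-! ### The operator `K1` -/

/-- **Integration over the last coordinate.** -/
noncomputable def K1 (k : Type) [Field k] (E : Type) (n : ℕ) :
    ((Fin (n + 1) → E × ℝ) → k) →ₗ[k] ((Fin n → E) → k) where
  toFun c x := la k fun r => P265.AS.prism (jj r.1) (jj r.2) c x
  map_add' c c' := by
    funext x
    rw [Pi.add_apply, ← map_add]
    congr 1
    funext r
    rw [P265.AS.prism_add]
    rfl
  map_smul' a c := by
    funext x
    rw [Pi.smul_apply, RingHom.id_apply, ← map_smul]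
    congr 1
    funext r
    rw [P265.AS.prism_smul]
    rfl

theorem K1_apply {n : ℕ} (c : (Fin (n + 1) → E × ℝ) → k) (x : Fin n → E) :
    K1 k E n c x = la k fun r => P265.AS.prism (jj r.1) (jj r.2) c x := rfl

theorem K1_zero (c : (Fin 1 → E × ℝ) → k) : K1 k E 0 c = 0 := by
  funext x
  rw [K1_apply]
  have : (fun r : ℝ × ℝ => P265.AS.prism (jj r.1) (jj r.2) c x) = 0 := rfl
  rw [this, map_zero]
  rfl

/-- **The fundamental identity.** -/
theorem d_K1 {n : ℕ} (c : (Fin (n + 1) → E × ℝ) → k) :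
    P265.AS.d (K1 k E n c) + K1 k E (n + 1) (P265.AS.d c) =
      P265.AS.pb (jj 1) c - P265.AS.pb (jj 0) c := by
  funext x
  have h1 : P265.AS.d (K1 k E n c) x =
      la k fun r => P265.AS.d (P265.AS.prism (jj r.1) (jj r.2) c) x := by
    rw [← d_fun]
    rfl
  rw [Pi.add_apply, h1, K1_apply, ← map_add]
  have e : ((fun r : ℝ × ℝ => P265.AS.d (P265.AS.prism (jj r.1) (jj r.2) c) x) +
      fun r => P265.AS.prism (jj r.1) (jj r.2) (P265.AS.d c) x) =
      fun r => (fun s => c (jj s ∘ x)) r.2 - (fun s => c (jj s ∘ x)) r.1 := by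
    funext r
    exact P265.AS.d_prism _ _ c x
  rw [e, la_diff (fun s => c (jj s ∘ x))]
  rfl

/-- Naturality on the nose. -/
theorem K1_pb (f : E → E') {n : ℕ} (c : (Fin (n + 1) → E' × ℝ) → k) :
    K1 k E n (P265.AS.pb (Prod.map f id) c) = P265.AS.pb f (K1 k E' n c) := by
  funext x
  rw [P265.AS.pb_apply, K1_apply, K1_apply]
  congr 1
  funext r
  exact (prism_nat _ _ f (Prod.map f id) c x (fun _ => rfl)
    fun _ => rfl).symm

/-- Two pullbacks which agree on `[0, 1]`. -/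
theorem K1_congr {n : ℕ} {c c' : (Fin (n + 1) → E × ℝ) → k} {x : Fin n → E}
    (h : ∀ y : Fin (n + 1) → E × ℝ, (∀ i, (∃ j, (y i).1 = x j) ∧ (y i).2 ∈ Icc (0 : ℝ) 1) →
      c y = c' y) : K1 k E n c x = K1 k E n c' x := by
  rw [K1_apply, K1_apply]
  refine la_congr fun r hr s hs => ?_
  rw [← sub_eq_zero, ← Pi.sub_apply, ← P265.AS.prism_sub]
  refine P265.AS.prism_eq_zero _ _ fun y hy => ?_
  rw [Pi.sub_apply, sub_eq_zero]
  refine h y fun i => ?_
  obtain ⟨j, hj | hj⟩ := hy i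
  · exact ⟨⟨j, by rw [hj]; rfl⟩, by rw [hj]; exact hr⟩
  · exact ⟨⟨j, by rw [hj]; rfl⟩, by rw [hj]; exact hs⟩

section Metric

variable [PseudoMetricSpace E] [PseudoMetricSpace E']

/-- The small tuples needed for `K1 c x`. -/
theorem K1_eq_zero {A : Set E} {ε : ℝ} {n : ℕ} {c : (Fin (n + 1) → E × ℝ) → k} {x : Fin n → E}
    (hε : 0 < ε) (hx : Sm A ε x) (h : ∀ y, Sm (A ×ˢ Icc (0 : ℝ) 1) ε y → c y = 0) :
    K1 k E n c x = 0 := by
  rw [K1_apply]
  refine la_van ⟨ε, hε, fun r hr s hs hrs => P265.AS.prism_eq_zero _ _ fun y hy => h y ?_⟩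
  have key : ∀ i, ∃ j, (y i).1 = x j ∧ ((y i).2 = r ∨ (y i).2 = s) := fun i => by
    obtain ⟨j, hj | hj⟩ := hy i
    · exact ⟨j, by rw [hj]; rfl, Or.inl (by rw [hj]; rfl)⟩
    · exact ⟨j, by rw [hj]; rfl, Or.inr (by rw [hj]; rfl)⟩
  refine ⟨fun i => ?_, fun i j => ?_⟩
  · obtain ⟨j, h1, h2⟩ := key i
    refine ⟨by rw [h1]; exact hx.1 j, ?_⟩
    rcases h2 with h2 | h2 <;> rw [h2]
    · exact hr
    · exact hs
  · obtain ⟨i', h1, h2⟩ := key i
    obtain ⟨j', h3, h4⟩ := key j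
    rw [Prod.dist_eq, max_lt_iff, h1, h3]
    refine ⟨hx.2 _ _, ?_⟩
    rw [Real.dist_eq]
    rcases h2 with h2 | h2 <;> rcases h4 with h4 | h4 <;> rw [h2, h4]
    · rwa [sub_self, abs_zero]
    · exact hrs
    · rwa [abs_sub_comm]
    · rwa [sub_self, abs_zero]

/-- Vanishing on small tuples is preserved. -/
theorem K1_van {A : Set E} {n : ℕ} {c : (Fin (n + 1) → E × ℝ) → k}
    (hc : Van (A ×ˢ Icc (0 : ℝ) 1) c) : Van A (K1 k E n c) := by
  obtain ⟨ε, hε, h⟩ := hc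
  exact ⟨ε, hε, fun x hx => K1_eq_zero hε hx h⟩

/-- If `c` is a cocycle of `A × I`, relative to `A × {0, 1}`, then `K1 c` is a cocycle. -/
theorem d_K1_van {A : Set E} {n : ℕ} {c : (Fin (n + 1) → E × ℝ) → k}
    (h0 : Van (A ×ˢ {0}) c) (h1 : Van (A ×ˢ {1}) c) :
    Van A (P265.AS.d (K1 k E n c) + K1 k E (n + 1) (P265.AS.d c)) := by
  rw [d_K1]
  obtain ⟨ε, hε, h0⟩ := h0
  obtain ⟨ε', hε', h1⟩ := h1
  refine ⟨min ε ε', lt_min hε hε', fun x hx => ?_⟩
  have key : ∀ r : ℝ, ∀ δ, min ε ε' ≤ δ → Sm (A ×ˢ {r}) δ (jj r ∘ x) := fun r δ hδ => by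
    refine ⟨fun i => ⟨hx.1 i, rfl⟩, fun i j => ?_⟩
    rw [Prod.dist_eq, max_lt_iff]
    refine ⟨(hx.2 i j).trans_le hδ, ?_⟩
    change dist r r < δ
    rw [dist_self]
    exact (lt_min hε hε').trans_le hδ
  rw [Pi.sub_apply, P265.AS.pb_apply, P265.AS.pb_apply, h1 _ (key 1 _ (min_le_right _ _)),
    h0 _ (key 0 _ (min_le_left _ _)), sub_zero]

end Metric

end Vale.Agent.P216.H799
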