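import Vale.Agent.P216.H799.Kop
import Vale.Agent.P216.H901.Susp

/-!
# The suspension isomorphism, any characteristic (P216-S3, block [C2-WANG], W2)

Fork of `H901/Susp.lean`: `sus : H^{q+1}(Z × I, Z × {0,1} ∪ A × I) → H^q(Z, A)`, induced by `K1`
of `H799/Kop.lean`, is bijective and natural; `H^0(Z × I, Z × {0,1} ∪ A × I) = 0`. No hypothesis
on the characteristic.
-/

open Set Matrix

namespace Vale.Agent.P216.H799

open Vale.Agent.P216.AS
open Vale.Agent.P216.H962 (prism_nat jj)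
open Vale.Agent.P216.H901 (cyl bcyl bcyl_subset eqv_triv ext0 d_ext0_high d_ext0_low sm_fst
  ext0_van van_bcyl uc_par isHtpy_par cr continuous_cr cr_mem cr_low cr_high Rc Rh isHtpy_Rh
  Rh_bcyl Th uc_Th Rc_mem_cyl Rc_van isMap_cyl mapsTo_bcyl)
open Vale.Agent.P216.H901 (tr on)
open Vale.Agent.P216.DV965 (VanI d_fun)

variable {E E' : Type} {k : Type} [Field k]

/-! ### The homotopy operator with the functional `la` -/

/-- The homotopy operator of `H`. -/
noncomputable def hop (H : ℝ → E → E') (n : ℕ) :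
    ((Fin (n + 1) → E') → k) →ₗ[k] ((Fin n → E) → k) where
  toFun c x := la k fun r => P265.AS.prism (H r.1) (H r.2) c x
  map_add' c c' := by
    funext x
    rw [Pi.add_apply, ← map_add]
    congr 1
    funext r
    rw [P265.AS.prism_add]
    rfl
  map_smul' a c := by
    funext x
    rw [Pi.smul_apply, RingHom.id_apply, ← map_smul]
    congr 1
    funext r
    rw [P265.AS.prism_smul]
    rfl

theorem hop_apply (H : ℝ → E → E') {n : ℕ} (c : (Fin (n + 1) → E') → k) (x : Fin n → E) :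
    hop H n c x = la k fun r => P265.AS.prism (H r.1) (H r.2) c x := rfl

theorem hop_zero (H : ℝ → E → E') (c : (Fin 1 → E') → k) : hop H 0 c = 0 := by
  funext x
  rw [hop_apply]
  have : (fun r : ℝ × ℝ => P265.AS.prism (H r.1) (H r.2) c x) = 0 := rfl
  rw [this, map_zero]
  rfl

theorem d_hop (H : ℝ → E → E') {n : ℕ} (c : (Fin (n + 1) → E') → k) :
    P265.AS.d (hop H n c) + hop H (n + 1) (P265.AS.d c) =
      P265.AS.pb (H 1) c - P265.AS.pb (H 0) c := by
  funext x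
  have h1 : P265.AS.d (hop H n c) x =
      la k fun r => P265.AS.d (P265.AS.prism (H r.1) (H r.2) c) x := by
    rw [← d_fun]
    rfl
  rw [Pi.add_apply, h1, hop_apply, ← map_add]
  have h3 : ((fun r : ℝ × ℝ => P265.AS.d (P265.AS.prism (H r.1) (H r.2) c) x) +
      fun r => P265.AS.prism (H r.1) (H r.2) (P265.AS.d c) x) =
      fun r => (fun s => c (H s ∘ x)) r.2 - (fun s => c (H s ∘ x)) r.1 := by
    funext r
    exact P265.AS.d_prism _ _ c x
  rw [h3, la_diff (fun s => c (H s ∘ x))]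
  rfl

theorem hop_eq_zero {H : ℝ → E → E'} {n : ℕ} {c : (Fin (n + 1) → E') → k} {x : Fin n → E}
    {δ : ℝ} (hδ : 0 < δ)
    (h : ∀ r ∈ Icc (0 : ℝ) 1, ∀ s ∈ Icc (0 : ℝ) 1, |r - s| < δ → ∀ y : Fin (n + 1) → E',
      (∀ i, ∃ j, y i = H r (x j) ∨ y i = H s (x j)) → c y = 0) : hop H n c x = 0 := by
  rw [hop_apply, la_van]
  exact ⟨δ, hδ, fun r hr s hs hrs => P265.AS.prism_eq_zero _ _ fun y hy => h r hr s hs hrs y hy⟩

section Metric

variable [PseudoMetricSpace E] [PseudoMetricSpace E']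

theorem hop_van {A : Set E} {A' : Set E'} {H : ℝ → E → E'}
    (hA : ∀ r ∈ Icc (0 : ℝ) 1, ∀ x ∈ A, H r x ∈ A')
    (hu : ∀ ε > 0, ∃ δ > 0, ∀ r ∈ Icc (0 : ℝ) 1, ∀ s ∈ Icc (0 : ℝ) 1, ∀ x ∈ A, ∀ y ∈ A,
      |r - s| < δ → dist x y < δ → dist (H r x) (H s y) < ε)
    {n : ℕ} {c : (Fin (n + 1) → E') → k} (hc : Van A' c) : Van A (hop H n c) := by
  obtain ⟨ε, hε, hc⟩ := hc
  obtain ⟨δ, hδ, hu⟩ := hu ε hε
  refine ⟨δ, hδ, fun x hx => ?_⟩
  refine hop_eq_zero hδ fun r hr s hs hrs y hy => hc y ⟨fun i => ?_, fun i j => ?_⟩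
  · obtain ⟨j, hj | hj⟩ := hy i
    · exact hj ▸ hA r hr _ (hx.1 j)
    · exact hj ▸ hA s hs _ (hx.1 j)
  · have h0 : ∀ t : ℝ, |t - t| < δ := fun t => by simpa using hδ
    obtain ⟨i', hi⟩ := hy i
    obtain ⟨j', hj⟩ := hy j
    have a := hx.1 i'
    have b := hx.1 j'
    rcases hi with hi | hi <;> rcases hj with hj | hj <;> rw [hi, hj]
    · exact hu r hr r hr _ a _ b (h0 r) (hx.2 _ _)
    · exact hu r hr s hs _ a _ b hrs (hx.2 _ _)
    · exact hu s hs r hr _ a _ b (by rwa [abs_sub_comm]) (hx.2 _ _)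
    · exact hu s hs s hs _ a _ b (h0 s) (hx.2 _ _)

/-- Relative cocycles of the cylinder. -/
theorem K1_mem_Zc {Z A : Set E} {q : ℕ}
    {c : (Fin (q + 2) → E × ℝ) → k}
    (hc : c ∈ Zc (Zr (tr (E × ℝ)) (on k) (cyl Z) (bcyl Z A))
      (Zr (tr (E × ℝ)) (on k) (cyl Z) (cyl Z)) (q + 1)) :
    K1 k E (q + 1) c ∈ Zc (Zr (tr E) (on k) Z A) (Zr (tr E) (on k) Z Z) q := by
  rw [mem_Zc_rel] at hc ⊢
  obtain ⟨-, hA, hd⟩ := hc
  refine ⟨eqv_triv _, K1_van (hA.mono subset_union_right), ?_⟩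
  have h0 : Van (Z ×ˢ ({0} : Set ℝ)) c := hA.mono (subset_union_of_subset_left
    (prod_mono_right (by simp)) _)
  have h1 : Van (Z ×ˢ ({1} : Set ℝ)) c := hA.mono (subset_union_of_subset_left
    (prod_mono_right (by simp)) _)
  have h3 := (d_K1_van h0 h1).sub (K1_van hd)
  rwa [add_sub_cancel_right] at h3

theorem K1_mem_Bc {Z A : Set E} {q : ℕ}
    {c : (Fin (q + 2) → E × ℝ) → k}
    (hc : c ∈ Bc (Zr (tr (E × ℝ)) (on k) (cyl Z) (bcyl Z A))
      (Zr (tr (E × ℝ)) (on k) (cyl Z) (cyl Z)) (q + 1)) :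
    K1 k E (q + 1) c ∈ Bc (Zr (tr E) (on k) Z A) (Zr (tr E) (on k) Z Z) q := by
  rw [mem_Bc_succ] at hc
  obtain ⟨y, hy, hyc⟩ := hc
  have h0 : Van (Z ×ˢ ({0} : Set ℝ)) y := hy.2.mono (subset_union_of_subset_left
    (prod_mono_right (by simp)) _)
  have h1 : Van (Z ×ˢ ({1} : Set ℝ)) y := hy.2.mono (subset_union_of_subset_left
    (prod_mono_right (by simp)) _)
  have h3 : Van Z (P265.AS.d (K1 k E q y) + K1 k E (q + 1) (P265.AS.d y)) := d_K1_van h0 h1
  have h4 : Van Z (K1 k E (q + 1) (c - P265.AS.d y)) := K1_van hyc.2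
  have h5 : Van Z (K1 k E (q + 1) c + P265.AS.d (K1 k E q y)) := by
    have := h3.add h4
    rw [map_sub] at this
    have e : P265.AS.d (K1 k E q y) + K1 k E (q + 1) (P265.AS.d y) +
        (K1 k E (q + 1) c - K1 k E (q + 1) (P265.AS.d y)) =
        K1 k E (q + 1) c + P265.AS.d (K1 k E q y) := by abel
    rwa [e] at this
  cases q with
  | zero =>
    rw [mem_Bc_zero]
    rw [K1_zero, P265.AS.d_zero, add_zero] at h5
    exact ⟨eqv_triv _, h5⟩
  | succ q =>
    rw [mem_Bc_succ]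
    refine ⟨-K1 k E (q + 1) y, ⟨eqv_triv _, (K1_van (hy.2.mono subset_union_right)).neg⟩,
      eqv_triv _, ?_⟩
    change Van Z (K1 k E (q + 2) c - P265.AS.d (-K1 k E (q + 1) y))
    rw [P265.AS.d_neg, sub_neg_eq_add]
    exact h5

/-- **The suspension map.** -/
noncomputable def sus (k : Type) [Field k] (Z A : Set E) (q : ℕ) :
    Hr (tr (E × ℝ)) (on k) (cyl Z) (bcyl Z A) (q + 1) →ₗ[k] Hr (tr E) (on k) Z A q :=
  H.lift (H.mkL _ _ q ∘ₗ (K1 k E (q + 1)).restrict fun _ hx => K1_mem_Zc hx) fun x hx hB => by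
    rw [LinearMap.comp_apply, H.mkL_apply, H.mk_eq_zero]
    exact K1_mem_Bc hB

theorem sus_mk {Z A : Set E} {q : ℕ} {c : (Fin (q + 2) → E × ℝ) → k}
    (hc : c ∈ Zc (Zr (tr (E × ℝ)) (on k) (cyl Z) (bcyl Z A))
      (Zr (tr (E × ℝ)) (on k) (cyl Z) (cyl Z)) (q + 1)) :
    sus k Z A q (H.mk c hc) = H.mk (K1 k E (q + 1) c) (K1_mem_Zc hc) := rfl

theorem sus_surjective (k : Type) [Field k] {Z A : Set E} (hAZ : A ⊆ Z) (q : ℕ) :
    Function.Surjective (sus k Z A q) := by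
  intro b
  obtain ⟨f, hf, rfl⟩ := H.exists_mk b
  have hf' := mem_Zc_rel.1 hf
  obtain ⟨-, hfA, ⟨ε, hε, hfd⟩⟩ := hf'
  obtain ⟨ε', hε', hfA'⟩ := ext0_van hfA
  have hc : P265.AS.d (ext0 f) ∈ Zc (Zr (tr (E × ℝ)) (on k) (cyl Z) (bcyl Z A))
      (Zr (tr (E × ℝ)) (on k) (cyl Z) (cyl Z)) (q + 1) := by
    rw [mem_Zc_rel]
    refine ⟨eqv_triv _, ?_, ?_⟩
    · refine van_bcyl (lt_min hε hε') ?_ ?_ ?_
      · intro x hx
        exact P265.AS.d_eq_zero fun y hy => hfA' y ((hx.mono le_rfl (min_le_right _ _)).sub hy)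
      · intro x _ hx
        exact d_ext0_low f fun i => (hx i).trans (by norm_num)
      · intro x hx hx'
        rw [d_ext0_high f fun i => lt_of_lt_of_le (by norm_num) (hx' i)]
        exact hfd _ (sm_fst (fun p hp => (bcyl_subset hAZ hp).1)
          (hx.mono le_rfl (min_le_left _ _)))
    · rw [P265.AS.d_d]
      exact van_zero
  refine ⟨H.mk _ hc, ?_⟩
  rw [sus_mk, eq_comm, H.mk_eq_mk]
  have key := d_K1 (ext0 f)
  have e1 : P265.AS.pb (jj 1) (ext0 f) = f := by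
    funext z
    change (if (1 : ℝ) / 2 < 1 then f (Prod.fst ∘ jj 1 ∘ z) else 0) = f z
    rw [if_pos (by norm_num)]
    rfl
  have e0 : P265.AS.pb (jj 0) (ext0 f) = 0 := by
    funext z
    change (if (1 : ℝ) / 2 < 0 then f (Prod.fst ∘ jj 0 ∘ z) else 0) = 0
    rw [if_neg (by norm_num)]
  rw [e1, e0, sub_zero] at key
  cases q with
  | zero =>
    rw [mem_Bc_zero]
    have k0 : P265.AS.d (K1 k E 0 (ext0 f)) = 0 := by rw [K1_zero, P265.AS.d_zero]
    have e2 : f - K1 k E (0 + 1) (P265.AS.d (ext0 f)) = 0 := by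
      rw [k0] at key
      exact sub_eq_of_eq_add key.symm
    rw [e2]
    exact Submodule.zero_mem _
  | succ q =>
    rw [mem_Bc_succ]
    refine ⟨K1 k E (q + 1) (ext0 f), ⟨eqv_triv _, K1_van (ext0_van hfA)⟩, ?_⟩
    have e2 : f - K1 k E (q + 1 + 1) (P265.AS.d (ext0 f)) -
        P265.AS.d (K1 k E (q + 1) (ext0 f)) = 0 := by
      rw [sub_eq_zero]
      exact sub_eq_of_eq_add key.symm
    change f - K1 k E (q + 1 + 1) (P265.AS.d (ext0 f)) -
        P265.AS.d (K1 k E (q + 1) (ext0 f)) ∈ _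
    rw [e2]
    exact Submodule.zero_mem _

omit [PseudoMetricSpace E] in
/-- On the tuples near the top, `hop Th (Rc^* c)` is `K1 (Rc^* c)`. -/
theorem hop_high {n : ℕ} (c : (Fin (n + 1) → E × ℝ) → k) {x : Fin n → E × ℝ}
    (hx : ∀ i, 3 / 4 ≤ (x i).2) :
    hop Th n (P265.AS.pb Rc c) x = K1 k E n (P265.AS.pb Rc c) (Prod.fst ∘ x) := by
  rw [hop_apply, K1_apply]
  refine la_congr fun r hr s hs => ?_
  have h1 : P265.AS.prism (Rc ∘ jj r) (Rc ∘ jj s) c (Prod.fst ∘ x) =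
      P265.AS.prism (Th r) (Th s) (P265.AS.pb Rc c) x := by
    have key : ∀ t : ℝ, ∀ i, (Rc ∘ jj t) (Prod.fst (x i)) = Rc (Th t (x i)) := by
      intro t i
      change ((x i).1, cr t) = ((x i).1, cr (min (x i).2 t))
      rcases le_total t (x i).2 with h | h
      · rw [min_eq_right h]
      · rw [min_eq_left h, cr_high (hx i), cr_high ((hx i).trans h)]
    exact prism_nat (Th r) (Th s) Prod.fst Rc c x (key r) (key s)
  have h2 : P265.AS.prism (Rc ∘ jj r) (Rc ∘ jj s) c (id ∘ (Prod.fst ∘ x)) =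
      P265.AS.prism (jj r) (jj s) (P265.AS.pb Rc c) (Prod.fst ∘ x) :=
    prism_nat (jj r) (jj s) id Rc c (Prod.fst ∘ x) (fun _ => rfl) fun _ => rfl
  rw [← h1, ← h2]
  rfl

/-- The primitive of a relative cocycle constructed with the truncation homotopy. -/
theorem prim_van {Z : Set E} {n : ℕ}
    {c : (Fin (n + 1) → E × ℝ) → k} (h0 : Van (Z ×ˢ ({0} : Set ℝ)) c)
    (hd : Van (cyl Z) (P265.AS.d c)) (w : (Fin n → E × ℝ) → k)
    (hw : P265.AS.d w = P265.AS.d (hop Th n (P265.AS.pb Rc c))) :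
    Van (cyl Z) (P265.AS.pb Rc c - P265.AS.d w) := by
  rw [hw]
  have key := d_hop (Th (E := E)) (P265.AS.pb Rc c)
  have h3 : Van (cyl Z) (hop Th (n + 1) (P265.AS.d (P265.AS.pb Rc c))) := by
    refine hop_van (A' := cyl Z)
      (fun r hr p hp => ⟨hp.1, le_min hp.2.1 hr.1, (min_le_right _ _).trans hr.2⟩)
      (uc_Th _ fun p hp => hp.2) ?_
    rw [P265.AS.d_pb]
    exact Rc_van (fun p hp => Rc_mem_cyl hp.1) (fun p hp => hp.2) hd
  have h4 : Van (cyl Z) (P265.AS.pb (Th 0) (P265.AS.pb Rc c)) := by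
    obtain ⟨ε, hε, h0⟩ := h0
    refine ⟨ε, hε, fun x hx => h0 _ ⟨fun i => ⟨(hx.1 i).1, ?_⟩, fun i j => ?_⟩⟩
    · change cr (min (x i).2 0) = 0
      rw [min_eq_right (hx.1 i).2.1, cr_low (by norm_num)]
    · change max (dist (x i).1 (x j).1) (dist (cr (min (x i).2 0)) (cr (min (x j).2 0))) < ε
      rw [min_eq_right (hx.1 i).2.1, min_eq_right (hx.1 j).2.1, dist_self]
      exact max_lt ((le_max_left _ _).trans_lt (hx.2 i j)) hε
  obtain ⟨ε, hε, h5⟩ := h3.add h4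
  refine ⟨ε, hε, fun x hx => ?_⟩
  have e1 := congrFun key x
  have e2 := h5 x hx
  have e3 : P265.AS.pb (Th 1) (P265.AS.pb Rc c) x = P265.AS.pb Rc c x := by
    rw [P265.AS.pb_apply, P265.AS.pb_apply, P265.AS.pb_apply]
    congr 1
    funext i
    change Rc ((x i).1, min (x i).2 1) = Rc (x i)
    rw [min_eq_left (hx.1 i).2.2]
  rw [Pi.add_apply, Pi.sub_apply, e3] at e1
  rw [Pi.add_apply] at e2
  rw [Pi.sub_apply]
  linear_combination e2 - e1

theorem sus_injective (k : Type) [Field k] {Z A : Set E} (hAZ : A ⊆ Z) (q : ℕ) :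
    Function.Injective (sus k Z A q) := by
  rw [injective_iff_map_eq_zero]
  intro a ha
  obtain ⟨c, hc, rfl⟩ := H.exists_mk a
  rw [sus_mk, H.mk_eq_zero] at ha
  rw [H.mk_eq_zero]
  obtain ⟨-, hcA, hcd⟩ := mem_Zc_rel.1 hc
  have hbc := bcyl_subset hAZ
  -- replace `c` by `Rc^* c`
  have e1 : pbK k (Rh 1) (q + 1) c - pbK k (Rh 0) (q + 1) c ∈
      Bc (Zr (tr (E × ℝ)) (on k) (cyl Z) (bcyl Z A))
        (Zr (tr (E × ℝ)) (on k) (cyl Z) (cyl Z)) (q + 1) :=
    homotopy_mem (isHtpy_Rh Z) hbc (Rh_bcyl Z A) hc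
  have e2 : pbK k (Rh 1) (q + 1) c = P265.AS.pb Rc c := by
    funext x
    change c _ = c _
    congr 1
    funext i
    change ((x i).1, (1 - 1) * (x i).2 + 1 * cr (x i).2) = ((x i).1, cr (x i).2)
    rw [sub_self, zero_mul, zero_add, one_mul]
  have e3 : pbK k (Rh 0) (q + 1) c = c := by
    funext x
    change c _ = c _
    congr 1
    funext i
    change ((x i).1, (1 - 0) * (x i).2 + 0 * cr (x i).2) = x i
    rw [sub_zero, zero_mul, add_zero, one_mul]
  rw [e2, e3] at e1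
  have hc' : P265.AS.pb Rc c ∈ Bc (Zr (tr (E × ℝ)) (on k) (cyl Z) (bcyl Z A))
      (Zr (tr (E × ℝ)) (on k) (cyl Z) (cyl Z)) (q + 1) := by
    have hK : K1 k E (q + 1) (P265.AS.pb Rc c) ∈
        Bc (Zr (tr E) (on k) Z A) (Zr (tr E) (on k) Z Z) q := by
      have := Submodule.add_mem _ (K1_mem_Bc e1) ha
      rw [map_sub, sub_add_cancel] at this
      exact this
    have h0 : Van (Z ×ˢ ({0} : Set ℝ)) c := hcA.mono (subset_union_of_subset_left
      (prod_mono_right (by simp)) _)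
    have hP : Van (A ×ˢ Icc (0 : ℝ) 1) (hop Th (q + 1) (P265.AS.pb Rc c)) := by
      refine hop_van (A' := A ×ˢ Icc (0 : ℝ) 1)
        (fun r hr p hp => ⟨hp.1, le_min hp.2.1 hr.1, (min_le_right _ _).trans hr.2⟩)
        (uc_Th _ fun p hp => hp.2) ?_
      exact Rc_van (Y := A ×ˢ Icc (0 : ℝ) 1) (fun p hp => Rc_mem_cyl hp.1) (fun p hp => hp.2)
        (hcA.mono subset_union_right)
    -- the primitive vanishes on the low tuples
    have hlow : ∃ ε > 0, ∀ x : Fin (q + 1) → E × ℝ, Sm (cyl Z) ε x → (∀ i, (x i).2 ≤ 1 / 4) →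
        hop Th (q + 1) (P265.AS.pb Rc c) x = 0 := by
      obtain ⟨ε, hε, h0⟩ := h0
      refine ⟨ε, hε, fun x hx hl => ?_⟩
      refine hop_eq_zero hε fun r hr s hs _ y hy => h0 _ ?_
      have key : ∀ i, ∃ j, (y i).1 = (x j).1 ∧ cr (y i).2 = 0 := by
        intro i
        obtain ⟨j, hj | hj⟩ := hy i
        · refine ⟨j, by rw [hj]; rfl, ?_⟩
          rw [hj]
          exact cr_low ((min_le_left _ _).trans (hl j))
        · refine ⟨j, by rw [hj]; rfl, ?_⟩
          rw [hj]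
          exact cr_low ((min_le_left _ _).trans (hl j))
      refine ⟨fun i => ?_, fun i j => ?_⟩
      · obtain ⟨j, h1, h2⟩ := key i
        refine ⟨?_, h2⟩
        change (y i).1 ∈ Z
        rw [h1]
        exact (hx.1 j).1
      · obtain ⟨i', h1, h1'⟩ := key i
        obtain ⟨j', h3, h3'⟩ := key j
        change max (dist (y i).1 (y j).1) (dist (cr (y i).2) (cr (y j).2)) < ε
        rw [h1, h3, h1', h3', dist_self]
        exact max_lt ((le_max_left _ _).trans_lt (hx.2 i' j')) hε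
    obtain ⟨ε₁, hε₁, hlow⟩ := hlow
    obtain ⟨ε₂, hε₂, hP'⟩ := hP
    rw [mem_Bc_succ]
    cases q with
    | zero =>
      rw [mem_Bc_zero] at hK
      obtain ⟨-, ε₃, hε₃, hK⟩ := hK
      refine ⟨hop Th 1 (P265.AS.pb Rc c), ⟨eqv_triv _, ?_⟩, eqv_triv _,
        prim_van h0 hcd _ rfl⟩
      refine van_bcyl (lt_min hε₁ (lt_min hε₂ hε₃)) ?_ ?_ ?_
      · intro x hx
        exact hP' x (hx.mono le_rfl ((min_le_right _ _).trans (min_le_left _ _)))
      · intro x hx hl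
        exact hlow x (hx.mono hbc (min_le_left _ _)) hl
      · intro x hx hh
        rw [hop_high c hh]
        exact hK _ (sm_fst (fun p hp => (hbc hp).1)
          (hx.mono le_rfl ((min_le_right _ _).trans (min_le_right _ _))))
    | succ q =>
      rw [mem_Bc_succ] at hK
      obtain ⟨w, hw, -, ε₃, hε₃, hK⟩ := hK
      have hw' : Van (A ×ˢ Icc (0 : ℝ) 1) (P265.AS.d (ext0 w)) := (ext0_van hw.2).d
      obtain ⟨ε₄, hε₄, hw'⟩ := hw'
      refine ⟨hop Th (q + 2) (P265.AS.pb Rc c) - P265.AS.d (ext0 w), ⟨eqv_triv _, ?_⟩,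
        eqv_triv _, prim_van h0 hcd _ ?_⟩
      · refine van_bcyl (lt_min hε₁ (lt_min hε₂ (lt_min hε₃ hε₄))) ?_ ?_ ?_
        · intro x hx
          rw [Pi.sub_apply,
            hP' x (hx.mono le_rfl ((min_le_right _ _).trans (min_le_left _ _))),
            hw' x (hx.mono le_rfl ((min_le_right _ _).trans ((min_le_right _ _).trans
              (min_le_right _ _)))), sub_zero]
        · intro x hx hl
          rw [Pi.sub_apply, hlow x (hx.mono hbc (min_le_left _ _)) hl,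
            d_ext0_low w fun i => (hl i).trans (by norm_num), sub_zero]
        · intro x hx hh
          rw [Pi.sub_apply, hop_high c hh,
            d_ext0_high w fun i => lt_of_lt_of_le (by norm_num) (hh i)]
          exact hK _ (sm_fst (fun p hp => (hbc hp).1)
            (hx.mono le_rfl ((min_le_right _ _).trans ((min_le_right _ _).trans
              (min_le_left _ _)))))
      · rw [P265.AS.d_sub, P265.AS.d_d, sub_zero]
  have := Submodule.sub_mem _ hc' e1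
  rwa [sub_sub_cancel] at this

/-- **The suspension isomorphism.** -/
theorem sus_bijective (k : Type) [Field k] {Z A : Set E} (hAZ : A ⊆ Z) (q : ℕ) :
    Function.Bijective (sus k Z A q) :=
  ⟨sus_injective k hAZ q, sus_surjective k hAZ q⟩

/-- There is nothing in degree zero. -/
theorem cyl_zero {Z A : Set E}
    (a : Hr (tr (E × ℝ)) (on k) (cyl Z) (bcyl Z A) 0) : a = 0 := by
  obtain ⟨c, hc, rfl⟩ := H.exists_mk a
  rw [H.mk_eq_zero, mem_Bc_zero]
  obtain ⟨-, hcA, hcd⟩ := mem_Zc_rel.1 hc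
  have h0 : Van (Z ×ˢ ({0} : Set ℝ)) c := hcA.mono (subset_union_of_subset_left
    (prod_mono_right (by simp)) _)
  refine ⟨eqv_triv _, ?_⟩
  have key := d_hop (Th (E := E)) c
  have h3 : Van (cyl Z) (hop Th 1 (P265.AS.d c)) :=
    hop_van (A' := cyl Z)
      (fun r hr p hp => ⟨hp.1, le_min hp.2.1 hr.1, (min_le_right _ _).trans hr.2⟩)
      (uc_Th _ fun p hp => hp.2) hcd
  obtain ⟨ε, hε, h3⟩ := h3
  obtain ⟨ε', hε', h0⟩ := h0
  refine ⟨min ε ε', lt_min hε hε', fun x hx => ?_⟩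
  have e1 := congrFun key x
  have e2 := h3 x (hx.mono le_rfl (min_le_left _ _))
  have e3 : P265.AS.pb (Th 1) c x = c x := by
    rw [P265.AS.pb_apply]
    congr 1
    funext i
    change ((x i).1, min (x i).2 1) = x i
    rw [min_eq_left (hx.1 i).2.2]
  have e4 : P265.AS.pb (Th 0) c x = 0 := by
    rw [P265.AS.pb_apply]
    refine h0 _ ⟨fun i => ⟨(hx.1 i).1, ?_⟩, fun i j => ?_⟩
    · change min (x i).2 0 = 0
      rw [min_eq_right (hx.1 i).2.1]
    · change max (dist (x i).1 (x j).1) (dist (min (x i).2 0) (min (x j).2 0)) < ε'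
      rw [min_eq_right (hx.1 i).2.1, min_eq_right (hx.1 j).2.1, dist_self]
      exact max_lt ((le_max_left _ _).trans_lt ((hx.2 i j).trans_le (min_le_right _ _))) hε'
  rw [hop_zero, P265.AS.d_zero, Pi.add_apply, Pi.zero_apply, zero_add, e2, Pi.sub_apply, e3, e4,
    sub_zero] at e1
  exact e1.symm

/-! ### Naturality -/

theorem sus_pullR {Z A : Set E} {Z' A' : Set E'} {f : E → E'}
    (h : IsMap (tr E) (tr E') Z Z' f) (hA : A ⊆ Z) (hf : MapsTo f A A') (q : ℕ)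
    (x : Hr (tr (E' × ℝ)) (on k) (cyl Z') (bcyl Z' A') (q + 1)) :
    sus k Z A q (pullR (on k) (isMap_cyl h) (bcyl_subset hA) (mapsTo_bcyl h.mapsX hf) (q + 1) x) =
      pullR (on k) h hA hf q (sus k Z' A' q x) := by
  obtain ⟨c, hc, rfl⟩ := H.exists_mk x
  rw [pullR_mk, sus_mk, sus_mk, pullR_mk, H.mk_eq_mk]
  have : K1 k E (q + 1) (pbK k (Prod.map f id) (q + 1) c) = pbK k f q (K1 k E' (q + 1) c) :=
    K1_pb f c
  rw [this, sub_self]
  exact Submodule.zero_mem _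

theorem sus_resR {Z A Y B : Set E} (hY : Y ⊆ Z) (hB : B ⊆ A) (q : ℕ)
    (hY' : cyl Y ⊆ cyl Z) (hB' : bcyl Y B ⊆ bcyl Z A)
    (x : Hr (tr (E × ℝ)) (on k) (cyl Z) (bcyl Z A) (q + 1)) :
    sus k Y B q (resR hY' hB' (q + 1) x) = resR hY hB q (sus k Z A q x) := by
  obtain ⟨c, hc, rfl⟩ := H.exists_mk x
  rfl

end Metric

end Vale.Agent.P216.H799
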