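import Vale.Agent.P216.AS.MVSets
import Vale.Agent.P216.H83.Exc

/-!
# Tautness, exact Mayer-Vietoris and strong excision without symmetries, any field
(P216-S3, block [C2-WANG], W1)

The theorems of `AS/Taut.lean`, `AS/MVSets.lean`, `H83/Exc.lean` for an empty index type of the
symmetries: no averaging, hence no hypothesis `(2 : k) ≠ 0`.
-/

set_option linter.all false

open Set Matrix

namespace Vale.Agent.P216.H799

open Vale.Agent.P216.AS

section Taut0

variable {E : Type} {k : Type} [Field k] {I : Type} [IsEmpty I]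

theorem eqv0 [PseudoMetricSpace E] (a : I → E → E) (χ : I → k) (X : Set E) {n : ℕ}
    (f : (Fin n → E) → k) : Eqv a χ X f := fun i => isEmptyElim i

theorem inv0 [PseudoMetricSpace E] (a : I → E → E) (X : Set E) : Inv a X := fun i => isEmptyElim i

section

variable [PseudoMetricSpace E] {a : I → E → E} {χ : I → k} {X A B : Set E}

theorem taut_mem (hA : IsCompact A) (hAX : A ⊆ X)
    {n : ℕ} {f : (Fin (n + 1) → E) → k}
    (hf : f ∈ Zc (Zr a χ X A) (Zn a χ X A) n) : f ∈ Bc (Zr a χ X A) (Zn a χ X A) n := by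
  obtain ⟨⟨hfE, ε₀, hε₀, h0⟩, -, ε₁, hε₁, h1⟩ := hf
  have h0' : ∀ x, Sm A ε₀ x → f x = 0 := h0
  have h1' : ∀ x, SmN X A ε₁ x → P265.AS.d f x = 0 := h1
  set ν := near A 1 with hν
  have hA0 : ∀ x ∈ A, dist x (ν x) ≤ 0 := fun x hx => by
    have := (near_spec hA hx (r := 1) (x := x) (by simp)).2
    simpa using this
  -- the primitive
  have hg : Van A (P265.AS.prism ν id f) := by
    refine ⟨ε₀, hε₀, fun x hx => P265.AS.prism_eq_zero _ _ fun y hy => h0' y ?_⟩
    refine ⟨mixed_mem hx.1 (fun i => near_mem le_rfl 1 (hx.1 i)) hy, fun i j => ?_⟩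
    have := mixed_dist le_rfl hx.2 (fun i => hA0 _ (hx.1 i)) hy i j
    simpa using this
  have hh : VanN X A (f - P265.AS.d (P265.AS.prism ν id f)) := by
    rw [sub_d_prism]
    have hpos : 0 < min (min (ε₀ / 3) (ε₁ / 3)) 1 := by positivity
    refine ⟨min (min (ε₀ / 3) (ε₁ / 3)) 1, hpos, fun x hx => ?_⟩
    set ε := min (min (ε₀ / 3) (ε₁ / 3)) 1 with hε
    have e0 : ε ≤ ε₀ / 3 := (min_le_left _ _).trans (min_le_left _ _)
    have e1 : ε ≤ ε₁ / 3 := (min_le_left _ _).trans (min_le_right _ _)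
    have e2 : ε ≤ 1 := min_le_right _ _
    have hν' : ∀ i, ν (x i) ∈ A ∧ dist (x i) (ν (x i)) < ε := fun i => by
      obtain ⟨y, hy, hxy⟩ := hx.2 i
      have := near_spec hA hy (hxy.trans_le e2)
      exact ⟨this.1, this.2.trans_lt hxy⟩
    rw [Pi.add_apply, P265.AS.pb_apply, h0' (ν ∘ x), zero_add]
    · refine P265.AS.prism_eq_zero _ _ fun y hy => h1' y ⟨⟨mixed_mem hx.1.1
        (fun i => hAX (hν' i).1) hy, fun i j => ?_⟩, fun i => ?_⟩
      · have := mixed_dist hpos.le hx.1.2 (fun i => (hν' i).2.le) hy i j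
        linarith
      · obtain ⟨l, hl | hl⟩ := hy i
        · exact ⟨ν (x l), (hν' l).1, by rw [hl]; simpa using hε₁⟩
        · exact ⟨ν (x l), (hν' l).1, by rw [hl]; exact (hν' l).2.trans_le (by linarith)⟩
    · refine ⟨fun i => (hν' i).1, fun i j => ?_⟩
      have h3 := hx.1.2 i j
      have h4 := (hν' i).2
      have h5 := (hν' j).2
      have h6 := dist_triangle4 (ν (x i)) (x i) (x j) (ν (x j))
      rw [dist_comm (ν (x i)) (x i)] at h6
      change dist (ν (x i)) (ν (x j)) < ε₀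
      linarith
  have hfin : VanN X A (f - P265.AS.d (P265.AS.prism ν id f)) := hh
  cases n with
  | zero =>
    rw [mem_Bc_zero]
    have h6 : P265.AS.d (P265.AS.prism ν id f : (Fin 0 → E) → k) = 0 := by
      change P265.AS.d (0 : (Fin 0 → E) → k) = 0
      rw [P265.AS.d_zero]
    rw [h6, sub_zero] at hfin
    exact ⟨eqv0 _ _ _ _, hfin⟩
  | succ n =>
    rw [mem_Bc_succ]
    exact ⟨P265.AS.prism ν id f, ⟨eqv0 _ _ _ _, hg⟩, eqv0 _ _ _ _, hfin⟩

/-- (T1) **Tautness**. -/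
theorem taut (hA : IsCompact A) (hAX : A ⊆ X) (n : ℕ) : Subsingleton (H (Zr a χ X A) (Zn a χ X A) n) :=
  H.subsingleton_iff.2 fun _ hx => taut_mem hA hAX hx

end

section MetricSp

variable [MetricSpace E] {a : I → E → E} {χ : I → k} {X A B : Set E}

theorem mv_acyclic_mem (hA : IsCompact A) (hB : IsCompact B)
    (hAX : A ⊆ X) (hBX : B ⊆ X) {n : ℕ}
    {f : (Fin (n + 1) → E) → k}
    (hf : f ∈ Zc (Zr a χ X A ⊓ Zr a χ X B) (Zr a χ X (A ∪ B)) n) :
    f ∈ Bc (Zr a χ X A ⊓ Zr a χ X B) (Zr a χ X (A ∪ B)) n := by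
  obtain ⟨⟨⟨hfE, ε₁, hε₁, h1⟩, -, ε₂, hε₂, h2⟩, -, ε₃, hε₃, h3⟩ := hf
  have h1' : ∀ x, Sm A ε₁ x → f x = 0 := h1
  have h2' : ∀ x, Sm B ε₂ x → f x = 0 := h2
  have h3' : ∀ x, Sm (A ∪ B) ε₃ x → P265.AS.d f x = 0 := h3
  set ε₀ := min (min ε₁ ε₂) ε₃ with hε₀d
  have hε₀ : 0 < ε₀ := by positivity
  have e1 : ε₀ ≤ ε₁ := (min_le_left _ _).trans (min_le_left _ _)
  have e2 : ε₀ ≤ ε₂ := (min_le_left _ _).trans (min_le_right _ _)
  have e3 : ε₀ ≤ ε₃ := min_le_right _ _
  set r := ε₀ / 3 with hr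
  have hr0 : 0 < r := by positivity
  obtain ⟨δ, hδ, hAB⟩ := exists_near_inter hA hB (r := r / 2) (by positivity)
  set ν := near (A ∩ B) r with hν
  have hνA : ∀ x ∈ A, ν x ∈ A := fun x hx => near_mem inter_subset_left r hx
  have hνB : ∀ x ∈ B, ν x ∈ B := fun x hx => near_mem inter_subset_right r hx
  have hνd : ∀ x, dist x (ν x) ≤ r := fun x => (dist_near_lt _ hr0 x).le
  have hgA : Van A (P265.AS.prism ν id f) := by
    refine ⟨r, hr0, fun x hx => P265.AS.prism_eq_zero _ _ fun y hy => h1' y ?_⟩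
    refine ⟨mixed_mem hx.1 (fun i => hνA _ (hx.1 i)) hy, fun i j => ?_⟩
    have := mixed_dist hr0.le hx.2 (fun i => hνd _) hy i j
    linarith
  have hgB : Van B (P265.AS.prism ν id f) := by
    refine ⟨r, hr0, fun x hx => P265.AS.prism_eq_zero _ _ fun y hy => h2' y ?_⟩
    refine ⟨mixed_mem hx.1 (fun i => hνB _ (hx.1 i)) hy, fun i j => ?_⟩
    have := mixed_dist hr0.le hx.2 (fun i => hνd _) hy i j
    linarith
  have hcompB : ∀ x ∈ B, ∀ y ∈ A, dist x y < δ → ∃ c ∈ A ∩ B, dist y c < r / 2 :=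
    fun x hx y hy hxy => hAB y hy x hx (by rwa [dist_comm])
  have hh : Van (A ∪ B) (f - P265.AS.d (P265.AS.prism ν id f)) := by
    rw [sub_d_prism]
    have hpos : 0 < min δ (r / 2) := by positivity
    refine ⟨min δ (r / 2), hpos, fun x hx => ?_⟩
    have d1 : ∀ i j, dist (x i) (x j) < δ := fun i j => (hx.2 i j).trans_le (min_le_left _ _)
    have d2 : ∀ i j, dist (x i) (x j) < r / 2 := fun i j =>
      (hx.2 i j).trans_le (min_le_right _ _)
    have dν : ∀ i j, dist (ν (x i)) (ν (x j)) < ε₀ := fun i j => by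
      have h6 := dist_triangle4 (ν (x i)) (x i) (x j) (ν (x j))
      rw [dist_comm (ν (x i)) (x i)] at h6
      have := hνd (x i)
      have := hνd (x j)
      have := d2 i j
      linarith
    rw [Pi.add_apply, P265.AS.pb_apply]
    have hpb : f (ν ∘ x) = 0 := by
      by_cases hxA : ∀ i, x i ∈ A
      · exact h1' _ ⟨fun i => hνA _ (hxA i), fun i j => (dν i j).trans_le e1⟩
      · by_cases hxB : ∀ i, x i ∈ B
        · exact h2' _ ⟨fun i => hνB _ (hxB i), fun i j => (dν i j).trans_le e2⟩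
        · push Not at hxA hxB
          obtain ⟨i, hi⟩ := hxA
          obtain ⟨j, hj⟩ := hxB
          have hiB : x i ∈ B := (hx.1 i).resolve_left hi
          have hjA : x j ∈ A := (hx.1 j).resolve_right hj
          obtain ⟨c, hc, hcj⟩ := hcompB _ hiB _ hjA (d1 i j)
          refine h1' _ ⟨fun l => ?_, fun i j => (dν i j).trans_le e1⟩
          have : dist (x l) c < r := by
            have := dist_triangle (x l) (x j) c
            have := d2 l j
            linarith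
          exact (near_spec (hA.inter_right hB.isClosed) hc this).1.1
    rw [hpb, zero_add]
    refine P265.AS.prism_eq_zero _ _ fun y hy => h3' y ⟨mixed_mem hx.1 (fun i => ?_) hy,
      fun i j => ?_⟩
    · rcases hx.1 i with hi | hi
      · exact Or.inl (hνA _ hi)
      · exact Or.inr (hνB _ hi)
    · have := mixed_dist hr0.le d2 (fun i => hνd _) hy i j
      linarith
  cases n with
  | zero =>
    rw [mem_Bc_zero]
    have h6 : P265.AS.d (P265.AS.prism ν id f : (Fin 0 → E) → k) = 0 := by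
      change P265.AS.d (0 : (Fin 0 → E) → k) = 0
      rw [P265.AS.d_zero]
    rw [h6, sub_zero] at hh
    exact ⟨eqv0 _ _ _ _, hh⟩
  | succ n =>
    rw [mem_Bc_succ]
    exact ⟨P265.AS.prism ν id f,
      ⟨⟨eqv0 _ _ _ _, hgA⟩, ⟨eqv0 _ _ _ _, hgB⟩⟩, eqv0 _ _ _ _, hh⟩

/-- (T2) **Exact Mayer-Vietoris** for compact sets. -/
theorem mv_acyclic (hA : IsCompact A) (hB : IsCompact B)
    (hAX : A ⊆ X) (hBX : B ⊆ X) (n : ℕ) :
    Subsingleton (H (Zr a χ X A ⊓ Zr a χ X B) (Zr a χ X (A ∪ B)) n) :=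
  H.subsingleton_iff.2 fun _ hx => mv_acyclic_mem hA hB hAX hBX hx

/-- `H(Zr(A' ∪ B') / Zr(A ∪ B)) → H((Zr A' ⊓ Zr B') / (Zr A ⊓ Zr B))` is bijective. -/
theorem union_bijective {W A' B' : Set E} (hA : IsCompact A)
    (hB : IsCompact B) (hA' : IsCompact A') (hB' : IsCompact B') (hAW : A ⊆ W) (hBW : B ⊆ W)
    (hAA : A' ⊆ A) (hBB : B' ⊆ B) (n : ℕ) :
    Function.Bijective (Hinc (Zr_union_le (X := W) (A := A') (B := B'))
      (Zr_union_le (X := W) (A := A) (B := B)) n :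
      H (Zr a χ W (A' ∪ B')) (Zr a χ W (A ∪ B)) n →ₗ[k]
        H (Zr a χ W A' ⊓ Zr a χ W B') (Zr a χ W A ⊓ Zr a χ W B) n) :=
  Hinc_bijective (Zr_anti le_rfl (union_subset_union hAA hBB)) Zr_union_le Zr_union_le
    (inf_le_inf (Zr_anti le_rfl hAA) (Zr_anti le_rfl hBB))
    (fun m => mv_acyclic hA' hB' (hAA.trans hAW) (hBB.trans hBW) m)
    (fun m => mv_acyclic hA hB hAW hBW m) n

/-- **Strong excision** for compact sets: `H(B, A) → H(N, N₀)` is bijective if `B = A ∪ N` and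
`N₀ = A ∩ N`. -/
theorem strong_excision {A N B N₀ : Set E} (hA : IsCompact A) (hN : IsCompact N)
    (hB : B = A ∪ N) (hN₀ : N₀ = A ∩ N) (hNB : N ⊆ B)
    (hNA : N₀ ⊆ A) (n : ℕ) :
    Function.Bijective (resR hNB hNA n : Hr a χ B A n →ₗ[k] Hr a χ N N₀ n) := by
  have hAB : A ⊆ B := hB ▸ subset_union_left
  have hAi : Inv a A := inv0 a A
  have hNi : Inv a N := inv0 a N
  -- first step
  have l1 : Zr a χ B B ≤ Zr a χ B A ⊓ Zr a χ B N :=
    le_inf (Zr_anti le_rfl hAB) (Zr_anti le_rfl hNB)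
  have b1 := Hinc_bijective_of_bot (T := Zr a χ B B) (T' := Zr a χ B A ⊓ Zr a χ B N)
    (S := Zr a χ B A) l1 inf_le_left (fun m => by
      have := mv_acyclic (a := a) (χ := χ) hA hN hAB hNB m
      rwa [← hB] at this) n
  have b2 := Hinc_second_iso (Zr a χ B A) (Zr a χ B N) n
  have e3 : Zr a χ B A ⊔ Zr a χ B N = Zr a χ B N₀ := by rw [Zr_sup hAi, hN₀]
  have b3 := world_bijective (k := k) (a := a) (χ := χ) (X := B) (Y := N) (A := N) (B := N₀) hNB
    le_rfl (by rw [hN₀]; exact inter_subset_right) hNi n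
  constructor
  · intro x y hxy
    apply b1.1
    apply b2.1
    have l2 : Zr a χ B A ⊔ Zr a χ B N ≤ Zr a χ B N₀ := e3.le
    have hinj : Function.Injective (Hinc l2 (le_refl (Zr a χ B N)) n :
        H (Zr a χ B A ⊔ Zr a χ B N) (Zr a χ B N) n →ₗ[k] H (Zr a χ B N₀) (Zr a χ B N) n) := by
      refine Hmap_injective (IsMor.id_of_le l2 le_rfl) (fun _ hx => hx) fun {n y} hy => ?_
      exact ⟨y, by rw [e3]; exact hy, by simp⟩
    apply hinj
    apply b3.1
    rw [Hinc_comp, Hinc_comp, Hinc_comp, Hinc_comp, Hinc_comp, Hinc_comp]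
    exact hxy
  · intro z
    obtain ⟨z₁, rfl⟩ := b3.2 z
    have l2 : Zr a χ B A ⊔ Zr a χ B N ≤ Zr a χ B N₀ := e3.le
    have hsurj : Function.Surjective (Hinc l2 (le_refl (Zr a χ B N)) n :
        H (Zr a χ B A ⊔ Zr a χ B N) (Zr a χ B N) n →ₗ[k] H (Zr a χ B N₀) (Zr a χ B N) n) := by
      refine Hmap_surjective (IsMor.id_of_le l2 le_rfl) (fun _ hx => hx) fun {n y} hy => ?_
      exact ⟨y, by rw [e3]; exact hy, by simp⟩
    obtain ⟨z₂, rfl⟩ := hsurj z₁
    obtain ⟨z₃, rfl⟩ := b2.2 z₂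
    obtain ⟨z₄, rfl⟩ := b1.2 z₃
    refine ⟨z₄, ?_⟩
    rw [Hinc_comp, Hinc_comp, Hinc_comp]
    rfl

end MetricSp

end Taut0

end Vale.Agent.P216.H799
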